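import Vale.Agent.P352.BW.Spec2
import Vale.Agent.P352.H846.TnDefs
import Vale.Agent.P352.H755.R7h

/-!
# P352 BWT: the Bisognano-Wichmann property from tensor fields (board #11709)
-/

set_option linter.all false

noncomputable section

open MeasureTheory Filter Topology
open scoped ComplexConjugate InnerProductSpace BoundedContinuousFunction

namespace Vale.Agent.P352.BW.T

open Vale.Agent.P132 (ModData expB jconj)
open UniformSpace (Completion)
open GF H246 H496 H755 H15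

variable {D : Type*} [NormedAddCommGroup D] [InnerProductSpace ℂ D]

/-! ## the net without the Bisognano-Wichmann property -/

/-- **Local nets**: `LNet` without `bw`. -/
structure LNet0 (Q : Theory D) (A : (V → V) → D → D)
    (𝒜 : Set V → VonNeumannAlgebra (Completion D)) : Prop extends Rep Q A where
  fld : ∀ O B f, Q.fld B → In O f → Aff (𝒜 O) (B f)
  mono : ∀ O O', O ⊆ O' → ∀ X ∈ 𝒜 O, X ∈ 𝒜 O'
  cov : ∀ s L y O, ∀ X ∈ 𝒜 O, 0 < s → IsLor L →
    ∃ Y ∈ 𝒜 (sim s L y '' O), ∀ z, Y (Ue Q s L y z) = Ue Q s L y (X z)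
  loc : ∀ a b, IsNull a → IsNull b → GF.mdot a b = 1 → ∀ X ∈ 𝒜 (Wdg b a 0),
    X ∈ (𝒜 (Wdg a b 0)).commutant
  reg : ∀ a b (E : ModData (𝒜 (HM.Rg a b 1)) (om Q)) (v : D), IsNull a → IsNull b →
    GF.mdot a b = 1 → ∃ w : D,
      HasDerivAt (fun t : ℝ => E.U t (v : Completion D)) ((w : D) : Completion D) 0

/-! ## tensor multiplets and one-field operators -/

/-- A tensor multiplet of fields: covariance under the Lorentz group only, `fld` only. -/
structure Ten (Q : Theory D) (k : ℕ) (Φ : (Fin k → Ix) → Fld D) : Prop where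
  fld : ∀ μ, Q.fld (Φ μ)
  cov : ∀ μ L f v, IsLor L → GF.IsTest f → Φ μ f (Q.U 1 L 0 v) =
    ∑ ν : Fin k → Ix, ((∏ i, L (ν i) (μ i) : ℝ) : ℂ) •
      Q.U 1 L 0 (Φ ν (fun x => f (sim 1 L 0 x)) v)

/-- the one-field operator `∑ c μ Φ μ f` -/
def op {k : ℕ} (Φ : (Fin k → Ix) → Fld D) (c : (Fin k → Ix) → ℂ) (f : Fn) (v : D) : D :=
  ∑ μ, c μ • Φ μ f v

/-- the tensor power of a real matrix -/
def tp {k : ℕ} (L : Ix → V) (c : (Fin k → Ix) → ℂ) (ν : Fin k → Ix) : ℂ :=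
  ∑ μ : Fin k → Ix, ((∏ i, L (ν i) (μ i) : ℝ) : ℂ) * c μ

/-- `x ↦ f (L x)` -/
def cp (L : Ix → V) (f : Fn) : Fn := fun x => f (sim 1 L 0 x)

/-- the boosts, with the parameter of the modular group of `Wdg a b 0` -/
def bq (a b : V) (t : ℝ) : Ix → V :=
  bst a b (Real.exp (-(2 * Real.pi * t)) - 1) (Real.exp (2 * Real.pi * t) - 1)

/-- the reflection of the plane of `a` and `b` -/
def rq (a b : V) : Ix → V := bst a b (-2) (-2)

/-- algebra of tensor multiplets -/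
structure T1 (Q : Theory D) : Prop where
  ten : ∀ k d Φ, H846.IsTen Q k d Φ → Ten Q k Φ
  adj : ∀ k Φ, Ten Q k Φ → ∃ Ψ, Ten Q k Ψ ∧ ∀ c f v w, GF.IsTest f →
    inner ℂ (op Φ c f v) w = inner ℂ v (op Ψ (fun μ => conj (c μ)) (GF.bar f) w)
  cov : ∀ k Φ c L f v, Ten Q k Φ → IsLor L → GF.IsTest f →
    op Φ c f (Q.U 1 L 0 v) = Q.U 1 L 0 (op Φ (tp L c) (cp L f) v)
  rr : ∀ (k : ℕ) (c : (Fin k → Ix) → ℂ) a b f, IsNull a → IsNull b → GF.mdot a b = 1 →
    tp (rq a b) (tp (rq a b) c) = c ∧ cp (rq a b) (cp (rq a b) f) = f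
  cj : ∀ (k : ℕ) (c : (Fin k → Ix) → ℂ) (L : Ix → V) f,
    (fun μ => conj (tp L c μ)) = tp L (fun μ => conj (c μ)) ∧ GF.bar (cp L f) = cp L (GF.bar f)
  wr : ∀ a b f, IsNull a → IsNull b → GF.mdot a b = 1 → In (Wdg a b 0) f →
    In (Wdg b a 0) (cp (rq a b) f)
  wb : ∀ a b f t, IsNull a → IsNull b → GF.mdot a b = 1 → In (Wdg a b 0) f →
    In (Wdg a b 0) (cp (bq a b t) f)
  ib : ∀ O f, In O f → In O (GF.bar f)
  /-- the boosts and the reflection commute -/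
  br : ∀ (k : ℕ) (c : (Fin k → Ix) → ℂ) a b t f, IsNull a → IsNull b → GF.mdot a b = 1 →
    tp (bq a b t) (tp (rq a b) c) = tp (rq a b) (tp (bq a b t) c) ∧
    cp (bq a b t) (cp (rq a b) f) = cp (rq a b) (cp (bq a b t) f)

/-- block T1 -/
def T1Stmt (Q : Theory D) (A : (V → V) → D → D) : Prop := Rep Q A → T1 Q

/-- closed strip `-1/2 ≤ Im z ≤ 0` -/
def Sm : Set ℂ := {z | -(1 / 2) ≤ z.im ∧ z.im ≤ 0}

/-- open strip -/
def SmI : Set ℂ := {z | -(1 / 2) < z.im ∧ z.im < 0}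

/-- block O: analytic continuation of the boosts on one-field vectors -/
def OStmt (Q : Theory D) (A : (V → V) → D → D) : Prop :=
  Rep Q A → ∀ (k : ℕ) (Φ : (Fin k → Ix) → Fld D) (c : (Fin k → Ix) → ℂ) (f : Fn) (a b : V),
    Ten Q k Φ → IsNull a → IsNull b → GF.mdot a b = 1 → In (Wdg a b 0) f →
    ∃ G : ℂ → Completion D, DifferentiableOn ℂ G SmI ∧ ContinuousOn G Sm ∧
      (∃ C, ∀ z ∈ Sm, ‖G z‖ ≤ C) ∧ ∀ t : ℝ,
        G t = (Q.U 1 (bq a b t) 0 (op Φ c f Q.vac) : D) ∧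
        G (t - Complex.I / 2) = (Q.U 1 (bq a b t) 0 (op Φ (tp (rq a b) c) (cp (rq a b) f) Q.vac) : D)

/-! ## modular theory -/

/-- `X` is affiliated to `M` and `X'` is its adjoint on `D` -/
def Afs (M : VonNeumannAlgebra (Completion D)) (X X' : D → D) : Prop :=
  (∀ v w, inner ℂ (X v) w = inner ℂ v (X' w)) ∧
    ∀ Y ∈ M.commutant, ∀ v w : D, inner ℂ ((X' w : D) : Completion D) (Y (v : Completion D)) =
      inner ℂ (w : Completion D) (Y ((X v : D) : Completion D))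

/-- block M: `Δ^{1/2} X ξ = J X* ξ` for `X` affiliated to `M`, `Δ^{-1/2} X ξ = J X* ξ` for `X`
affiliated to the commutant -/
def MStmt (D : Type*) [NormedAddCommGroup D] [InnerProductSpace ℂ D] : Prop :=
  ∀ (M : VonNeumannAlgebra (Completion D)) (ξ : D) (E : ModData M (ξ : Completion D))
    (X X' : D → D), (Afs M X X' → ∀ F G : ℝ →ᵇ ℂ, (∀ h : ℝ, F h = Real.exp (h / 2) * G h) →
      E.Th G (E.J ((X' ξ : D) : Completion D)) = E.Th F ((X ξ : D) : Completion D)) ∧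
    (Afs M.commutant X X' → ∀ F G : ℝ →ᵇ ℂ, (∀ h : ℝ, F h = Real.exp (h / 2) * G h) →
      E.Th F (E.J ((X' ξ : D) : Completion D)) = E.Th G ((X ξ : D) : Completion D))

/-- block N: symmetries of `(M, ξ)` commute with the modular objects -/
def NStmt (H : Type*) [NormedAddCommGroup H] [InnerProductSpace ℂ H] [CompleteSpace H] : Prop :=
  ∀ (M : VonNeumannAlgebra H) (ξ : H) (E : ModData M ξ) (W : H ≃ₗᵢ[ℂ] H), W ξ = ξ →
    (∀ X ∈ M, ∃ Y ∈ M, ∀ z, Y (W z) = W (X z)) → (∀ Y ∈ M, ∃ X ∈ M, ∀ z, Y (W z) = W (X z)) →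
    (∀ F z, W (E.Th F z) = E.Th F (W z)) ∧ ∀ z, W (E.J z) = E.J (W z)

/-- `M` is the algebra of the wedge `Wdg a b 0`, as far as needed -/
structure Wal (Q : Theory D) (a b : V) (M : VonNeumannAlgebra (Completion D)) : Prop where
  na : IsNull a
  nb : IsNull b
  nab : GF.mdot a b = 1
  aff : ∀ k Φ c f, Ten Q k Φ → In (Wdg a b 0) f → Aff M (op Φ c f)
  aff' : ∀ k Φ c f, Ten Q k Φ → In (Wdg b a 0) f → Aff M.commutant (op Φ c f)
  cov : ∀ t, ∀ X ∈ M, ∃ Y ∈ M, ∀ z, Y (Ue Q 1 (bq a b t) 0 z) = Ue Q 1 (bq a b t) 0 (X z)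

/-- block W: the wedge algebras of a local net -/
def WStmt (Q : Theory D) (A : (V → V) → D → D)
    (𝒜 : Set V → VonNeumannAlgebra (Completion D)) : Prop :=
  LNet0 Q A 𝒜 → ∀ a b, IsNull a → IsNull b → GF.mdot a b = 1 → Wal Q a b (𝒜 (Wdg a b 0))

/-- block S (from T1, O, M, N, the strip lemma `AStmt`, `BStmt`): the modular unitaries are the
boosts on one-field vectors -/
def SStmt (Q : Theory D) (A : (V → V) → D → D) : Prop :=
  Rep Q A → ∀ a b M (E : ModData M (om Q)), Wal Q a b M → ∀ k Φ c f (t : ℝ), Ten Q k Φ →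
    In (Wdg a b 0) f → E.U t ((op Φ c f Q.vac : D) : Completion D) =
      ((Q.U 1 (bq a b t) 0 (op Φ c f Q.vac) : D) : Completion D)

/-- block P (from T1, N, S): products -/
def PStmt (Q : Theory D) (A : (V → V) → D → D) : Prop :=
  Rep Q A → ∀ a b M (E : ModData M (om Q)), Wal Q a b M → ∀ k Φ c f (v : D), Ten Q k Φ →
    In (Wdg a b 0) f →
    (∀ t : ℝ, E.U t (v : Completion D) = ((Q.U 1 (bq a b t) 0 v : D) : Completion D)) →
    ∀ t : ℝ, E.U t ((op Φ c f v : D) : Completion D) =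
      ((Q.U 1 (bq a b t) 0 (op Φ c f v) : D) : Completion D)

/-- block R: Reeh-Schlieder for tensor fields and wedges -/
def RStmt (Q : Theory D) (A : (V → V) → D → D) : Prop :=
  Rep Q A → H846.TGen Q → ∀ a b, IsNull a → IsNull b → GF.mdot a b = 1 →
    ∀ S : Submodule ℂ D, Q.vac ∈ S →
      (∀ k Φ c f v, Ten Q k Φ → In (Wdg a b 0) f → v ∈ S → op Φ c f v ∈ S) → Dense (S : Set D)

/-- block BWF (from P, R, U): the Bisognano-Wichmann property -/
def BWFStmt (Q : Theory D) (A : (V → V) → D → D)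
    (𝒜 : Set V → VonNeumannAlgebra (Completion D)) : Prop :=
  H846.TGen Q → LNet0 Q A 𝒜 → LNet Q A 𝒜

end Vale.Agent.P352.BW.T

end
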