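import Vale.Agent.P352.BW.T.Spec
import Vale.Agent.P352.H755.R7d

/-!
# P352 BWT: block T1, algebra of tensor multiplets
-/

set_option linter.all false

noncomputable section

open MeasureTheory Filter Topology
open scoped ComplexConjugate InnerProductSpace BoundedContinuousFunction SchwartzMap

namespace Vale.Agent.P352.BW.T

open UniformSpace (Completion)
open GF H246 H496 H755 H15

variable {D : Type*} [NormedAddCommGroup D] [InnerProductSpace ℂ D] {Q : Theory D}
  {A : (V → V) → D → D}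

/-! ### matrices -/

/-- composition of matrices: the map `sim 1 L' 0` after `sim 1 L 0` -/
def cm (L L' : Ix → V) : Ix → V := fun n => sim 1 L' 0 (L n)

lemma cm_apply (L L' : Ix → V) (n k : Ix) : cm L L' n k = ∑ m, L n m * L' m k := by
  simp [cm, sim]

lemma sim_cm (L L' : Ix → V) (x : V) : sim 1 (cm L L') 0 x = sim 1 L' 0 (sim 1 L 0 x) := by
  funext k
  simp only [sim, cm_apply, Pi.zero_apply, zero_add, one_mul, Fin.sum_univ_four]
  ring

lemma cp_cp (L L' : Ix → V) (f : Fn) : cp L (cp L' f) = cp (cm L L') f := by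
  funext x
  simp only [cp, sim_cm]

lemma tp_tp {k : ℕ} (L L' : Ix → V) (c : (Fin k → Ix) → ℂ) : tp L (tp L' c) = tp (cm L L') c := by
  funext ν
  unfold tp
  have h1 : ∀ κ : Fin k → Ix, ((∏ i, cm L L' (ν i) (κ i) : ℝ) : ℂ) =
      ∑ μ : Fin k → Ix, ((∏ i, L (ν i) (μ i) : ℝ) : ℂ) * ((∏ i, L' (μ i) (κ i) : ℝ) : ℂ) := by
    intro κ
    have h2 : ∏ i, cm L L' (ν i) (κ i) =
        ∑ μ : Fin k → Ix, ∏ i, (L (ν i) (μ i) * L' (μ i) (κ i)) := by
      rw [← Fintype.prod_sum (fun i m => L (ν i) m * L' m (κ i))]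
      exact Finset.prod_congr rfl fun i _ => cm_apply L L' (ν i) (κ i)
    rw [h2]
    push_cast
    exact Finset.sum_congr rfl fun μ _ => Finset.prod_mul_distrib
  simp only [h1, Finset.sum_mul, Finset.mul_sum]
  rw [Finset.sum_comm]
  refine Finset.sum_congr rfl fun κ _ => Finset.sum_congr rfl fun μ _ => ?_
  ring

lemma tp_one {k : ℕ} (c : (Fin k → Ix) → ℂ) : tp GF.one c = c := by
  funext ν
  unfold tp
  rw [Finset.sum_eq_single ν]
  · have : ∀ i, GF.one (ν i) (ν i) = 1 := fun i => by simp [GF.one, bas]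
    simp [this]
  · intro μ _ hμ
    obtain ⟨i, hi⟩ : ∃ i, μ i ≠ ν i := by
      by_contra hc
      push Not at hc
      exact hμ (funext hc)
    have : ∏ i, GF.one (ν i) (μ i) = 0 :=
      Finset.prod_eq_zero (Finset.mem_univ i) (by simp [GF.one, bas, hi])
    rw [this]
    simp
  · intro h
    exact absurd (Finset.mem_univ _) h

lemma cp_one (f : Fn) : cp GF.one f = f := by
  funext x
  simp only [cp, sim_one', add_zero]

lemma bst_sim {a b : V} (ha : IsNull a) (hb : IsNull b) (hab : GF.mdot a b = 1) (α β : ℝ) (x : V) :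
    GF.mdot a (sim 1 (bst a b α β) 0 x) = (1 + β) * GF.mdot a x ∧
    GF.mdot b (sim 1 (bst a b α β) 0 x) = (1 + α) * GF.mdot b x := by
  have hba : GF.mdot b a = 1 := by rw [md_comm]; exact hab
  rw [sim_bst]
  simp only [md_add, md_smul, ha.1, hb.1, hab, hba]
  constructor <;> ring

lemma cm_bst {a b : V} (ha : IsNull a) (hb : IsNull b) (hab : GF.mdot a b = 1) (α β α' β' : ℝ) :
    cm (bst a b α β) (bst a b α' β') = bst a b (α + α' + α * α') (β + β' + β * β') := by
  funext m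
  have h1 : ∀ (L : Ix → V), L m = sim 1 L 0 (bas m 1) := by
    intro L
    funext n
    simp [sim, bas]
  rw [h1 (cm _ _), h1 (bst a b (α + α' + α * α') _), sim_cm, sim_bst a b α' β',
    (bst_sim ha hb hab α β _).1, (bst_sim ha hb hab α β _).2, sim_bst, sim_bst]
  funext n
  simp only [Pi.add_apply, Pi.smul_apply, smul_eq_mul]
  ring

lemma bst_zero (a b : V) : bst a b 0 0 = GF.one := by
  funext m n
  simp [bst, GF.one]

/-! ### test functions -/

lemma sim_hom (L : Ix → V) : Continuous (sim 1 L 0) := by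
  refine continuous_pi fun n => ?_
  unfold sim
  fun_prop

/-- invertible linear maps -/
def eqv (L L' : Ix → V) (h1 : ∀ x, sim 1 L' 0 (sim 1 L 0 x) = x)
    (h2 : ∀ x, sim 1 L 0 (sim 1 L' 0 x) = x) : V ≃L[ℝ] V where
  toFun := sim 1 L 0
  invFun := sim 1 L' 0
  map_add' := simL_add L
  map_smul' := fun c x => simL_smul L c x
  left_inv := h1
  right_inv := h2
  continuous_toFun := sim_hom L
  continuous_invFun := sim_hom L'

lemma test_cp {L L' : Ix → V} (h1 : ∀ x, sim 1 L' 0 (sim 1 L 0 x) = x)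
    (h2 : ∀ x, sim 1 L 0 (sim 1 L' 0 x) = x) {f : Fn} (hf : GF.IsTest f) : GF.IsTest (cp L f) := by
  obtain ⟨g, rfl⟩ := hf
  exact ⟨SchwartzMap.compCLMOfContinuousLinearEquiv ℂ (eqv L L' h1 h2) g, rfl⟩

lemma in_cp {L L' : Ix → V} (h1 : ∀ x, sim 1 L' 0 (sim 1 L 0 x) = x)
    (h2 : ∀ x, sim 1 L 0 (sim 1 L' 0 x) = x) {O O' : Set V} (hO : ∀ x, sim 1 L 0 x ∈ O → x ∈ O')
    {f : Fn} (hf : In O f) : In O' (cp L f) := by
  have e : cp L f = f ∘ (eqv L L' h1 h2).toHomeomorph := rfl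
  refine ⟨test_cp h1 h2 hf.1, ?_, ?_⟩
  · rw [e]
    exact hf.2.1.comp_homeomorph _
  · rw [e, tsupport_comp_eq_preimage]
    intro x hx
    exact hO x (hf.2.2 hx)

lemma test_lor {L : Ix → V} (hL : IsLor L) {f : Fn} (hf : GF.IsTest f) : GF.IsTest (cp L f) := by
  have h2 : ∀ x, sim 1 L 0 (sim 1 (linv L) 0 x) = x := fun x => sim_linv hL x
  have h1 : ∀ x, sim 1 (linv L) 0 (sim 1 L 0 x) = x := by
    intro x
    have h := h2 (sim 1 L 0 x)
    have h3 : H755.simE 1 L one_pos hL (sim 1 (linv L) 0 (sim 1 L 0 x)) =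
        H755.simE 1 L one_pos hL x := by
      rw [H755.simE_apply, H755.simE_apply, h]
    exact (H755.simE 1 L one_pos hL).injective h3
  exact test_cp h1 h2 hf

lemma bst_inv {a b : V} (ha : IsNull a) (hb : IsNull b) (hab : GF.mdot a b = 1) {α β α' β' : ℝ}
    (h1 : α + α' + α * α' = 0) (h2 : β + β' + β * β' = 0) (x : V) :
    sim 1 (bst a b α' β') 0 (sim 1 (bst a b α β) 0 x) = x := by
  rw [← sim_cm, cm_bst ha hb hab, h1, h2, bst_zero, sim_one', add_zero]

lemma exp_bq (s : ℝ) : (Real.exp (-s) - 1) + (Real.exp s - 1) +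
    (Real.exp (-s) - 1) * (Real.exp s - 1) = 0 := by
  have h : Real.exp (-s) * Real.exp s = 1 := by rw [← Real.exp_add]; simp
  linear_combination h

/-! ### the multiplets -/

lemma U_surj (h : Rep Q A) {L : Ix → V} (hL : IsLor L) (w : D) :
    Q.U 1 L 0 (Q.U 1 (linv L) 0 w) = w := by
  rw [h.mul 1 L 0 1 (linv L) 0 w one_pos one_pos hL (isLor_linv hL), linv_id hL, sim_zero', mul_one]
  exact Uone w

lemma ten_of {k : ℕ} {d : ℝ} {Φ : (Fin k → Ix) → Fld D} (h : H846.IsTen Q k d Φ) : Ten Q k Φ := by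
  refine ⟨fun μ => Q.bose_fld _ (h.1 μ), fun μ L f v hL hf => ?_⟩
  have := h.2 μ 1 L 0 f v one_pos hL hf
  simpa only [Real.one_rpow, one_mul] using this

lemma bar_cp (L : Ix → V) (f : Fn) : GF.bar (cp L f) = cp L (GF.bar f) := rfl

lemma bar_bar' (f : Fn) : GF.bar (GF.bar f) = f := by
  funext x
  simp [GF.bar]

lemma test_bar {f : Fn} (hf : GF.IsTest f) : GF.IsTest (GF.bar f) := by
  obtain ⟨g, rfl⟩ := hf
  exact ⟨SchwartzMap.postcompCLM (𝕜 := ℝ) (Complex.conjCLE : ℂ →L[ℝ] ℂ) g, rfl⟩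

lemma adj_of (h : Rep Q A) {k : ℕ} {Φ : (Fin k → Ix) → Fld D} (hΦ : Ten Q k Φ) :
    ∃ Ψ : (Fin k → Ix) → Fld D, Ten Q k Ψ ∧ ∀ (c : (Fin k → Ix) → ℂ) f v w, GF.IsTest f →
      inner ℂ (op Φ c f v) w = inner ℂ v (op Ψ (fun μ => conj (c μ)) (GF.bar f) w) := by
  choose Ψ hΨ hadj using fun μ => Q.adj (Φ μ) (hΦ.fld μ)
  refine ⟨Ψ, ⟨hΨ, fun μ L f v hL hf => ?_⟩, fun c f v w hf => ?_⟩
  · refine ext_inner_left ℂ fun w => ?_
    have hw := U_surj h hL w
    set w' := Q.U 1 (linv L) 0 w with hw'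
    have hbf := test_bar hf
    have hs := hadj μ (GF.bar f) w (Q.U 1 L 0 v) hbf
    rw [bar_bar'] at hs
    rw [← hs, ← hw, hΦ.cov μ L (GF.bar f) w' hL hbf, sum_inner, inner_sum]
    refine Finset.sum_congr rfl fun ν _ => ?_
    rw [inner_smul_left, inner_smul_right, Q.U_inner 1 L 0 _ _ one_pos hL,
      Q.U_inner 1 L 0 _ _ one_pos hL]
    have h3 := hadj ν (cp L (GF.bar f)) w' v (test_lor hL hbf)
    rw [bar_cp, bar_bar'] at h3
    have h4 : inner ℂ (Φ ν (fun x => GF.bar f (sim 1 L 0 x)) w') v =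
      inner ℂ w' (Ψ ν (fun x => f (sim 1 L 0 x)) v) := h3
    rw [h4, Complex.conj_ofReal]
  · unfold op
    rw [sum_inner, inner_sum]
    refine Finset.sum_congr rfl fun μ _ => ?_
    rw [inner_smul_left, inner_smul_right, hadj μ f v w hf]

lemma cov_of {k : ℕ} {Φ : (Fin k → Ix) → Fld D} (hΦ : Ten Q k Φ) (c : (Fin k → Ix) → ℂ)
    {L : Ix → V} (hL : IsLor L) {f : Fn} (hf : GF.IsTest f) (v : D) :
    op Φ c f (Q.U 1 L 0 v) = Q.U 1 L 0 (op Φ (tp L c) (cp L f) v) := by
  have e1 : Q.U 1 L 0 (op Φ (tp L c) (cp L f) v) =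
      ∑ ν, tp L c ν • Q.U 1 L 0 (Φ ν (cp L f) v) := by
    unfold op
    rw [H246.U_sum one_pos hL]
    exact Finset.sum_congr rfl fun ν _ => U_smul one_pos hL 0 _ _
  rw [e1]
  unfold op
  have e2 : ∀ μ, c μ • Φ μ f (Q.U 1 L 0 v) = ∑ ν : Fin k → Ix,
      (((∏ i, L (ν i) (μ i) : ℝ) : ℂ) * c μ) • Q.U 1 L 0 (Φ ν (cp L f) v) := by
    intro μ
    rw [hΦ.cov μ L f v hL hf, Finset.smul_sum]
    refine Finset.sum_congr rfl fun ν _ => ?_
    rw [smul_smul, mul_comm]
    rfl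
  simp only [e2]
  rw [Finset.sum_comm]
  refine Finset.sum_congr rfl fun ν _ => ?_
  rw [← Finset.sum_smul]
  rfl

/-- block T1 -/
theorem t1 (Q : Theory D) (A : (V → V) → D → D) : T1Stmt Q A := by
  intro h
  refine ⟨fun k d Φ => ten_of, fun k Φ => adj_of h, fun k Φ c L f v hΦ hL hf =>
    cov_of hΦ c hL hf v, ?_, ?_, ?_, ?_, ?_, ?_⟩
  · intro k c a b f ha hb hab
    have e : cm (rq a b) (rq a b) = GF.one := by
      unfold rq
      rw [cm_bst ha hb hab]
      norm_num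
      exact bst_zero a b
    rw [tp_tp, cp_cp, e, tp_one, cp_one]
    exact ⟨rfl, rfl⟩
  · intro k c L f
    refine ⟨?_, rfl⟩
    funext ν
    unfold tp
    rw [map_sum]
    exact Finset.sum_congr rfl fun μ _ => by rw [map_mul, Complex.conj_ofReal]
  · intro a b f ha hb hab hf
    have h1 : ∀ x, sim 1 (rq a b) 0 (sim 1 (rq a b) 0 x) = x :=
      bst_inv ha hb hab (by norm_num) (by norm_num)
    refine in_cp h1 h1 (fun x hx => ?_) hf
    have h2 : GF.mdot a (sim 1 (rq a b) 0 x) = (1 + -2) * GF.mdot a x ∧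
      GF.mdot b (sim 1 (rq a b) 0 x) = (1 + -2) * GF.mdot b x := bst_sim ha hb hab _ _ x
    simp only [Wdg, Set.mem_setOf_eq, sub_zero, h2.1, h2.2] at hx ⊢
    constructor <;> linarith [hx.1, hx.2]
  · intro a b f t ha hb hab hf
    have e1 := exp_bq (2 * Real.pi * t)
    have e2 := exp_bq (-(2 * Real.pi * t))
    rw [neg_neg] at e2
    refine in_cp (L := bq a b t) (L' := bq a b (-t)) ?_ ?_ (fun x hx => ?_) hf
    · refine bst_inv ha hb hab ?_ ?_
      · rw [show -(2 * Real.pi * -t) = 2 * Real.pi * t by ring]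
        exact e1
      · rw [show 2 * Real.pi * -t = -(2 * Real.pi * t) by ring]
        exact e2
    · refine bst_inv ha hb hab ?_ ?_
      · rw [show -(2 * Real.pi * -t) = 2 * Real.pi * t by ring]
        exact e2
      · rw [show 2 * Real.pi * -t = -(2 * Real.pi * t) by ring]
        exact e1
    · have h2 := bst_sim ha hb hab (Real.exp (-(2 * Real.pi * t)) - 1)
        (Real.exp (2 * Real.pi * t) - 1) x
      have h3 : GF.mdot a (sim 1 (bq a b t) 0 x) = Real.exp (2 * Real.pi * t) * GF.mdot a x := by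
        rw [show Real.exp (2 * Real.pi * t) = 1 + (Real.exp (2 * Real.pi * t) - 1) by ring]
        exact h2.1
      have h4 : GF.mdot b (sim 1 (bq a b t) 0 x) = Real.exp (-(2 * Real.pi * t)) * GF.mdot b x := by
        rw [show Real.exp (-(2 * Real.pi * t)) = 1 + (Real.exp (-(2 * Real.pi * t)) - 1) by ring]
        exact h2.2
      simp only [Wdg, Set.mem_setOf_eq, sub_zero, h3, h4] at hx ⊢
      exact ⟨neg_of_mul_neg_right hx.1 (Real.exp_pos _).le,
        pos_of_mul_pos_right hx.2 (Real.exp_pos _).le⟩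
  · intro O f hf
    refine ⟨test_bar hf.1, ?_, ?_⟩
    · unfold HasCompactSupport
      rw [H246.tsupport_bar]
      exact hf.2.1
    · rw [H246.tsupport_bar]
      exact hf.2.2
  · intro k c a b t f ha hb hab
    have e : cm (bq a b t) (rq a b) = cm (rq a b) (bq a b t) := by
      unfold bq rq
      rw [cm_bst ha hb hab, cm_bst ha hb hab]
      congr 1 <;> ring
    rw [tp_tp, tp_tp, cp_cp, cp_cp, e]
    exact ⟨rfl, rfl⟩

end Vale.Agent.P352.BW.T

end
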