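import Mathlib

/-!
# P352 / BWT, block O (helper911): weakly analytic and norm continuous implies norm analytic
-/

open Set Filter MeasureTheory Complex Topology Metric
open scoped NNReal Real

namespace Vale.Agent.P352.BW.T

variable {H : Type*} [NormedAddCommGroup H] [InnerProductSpace ℂ H] [CompleteSpace H]

/-- A norm continuous function that is weakly analytic on an open set is norm analytic there. -/
theorem nrm_diff {G : ℂ → H} {U : Set ℂ} (hU : IsOpen U) (hc : ContinuousOn G U)
    (hw : ∀ y, DifferentiableOn ℂ (fun z => inner ℂ y (G z)) U) : DifferentiableOn ℂ G U := by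
  intro z₀ hz₀
  apply DifferentiableAt.differentiableWithinAt
  obtain ⟨r, hr, hball⟩ := Metric.isOpen_iff.1 hU z₀ hz₀
  set R : ℝ≥0 := ⟨r / 2, by positivity⟩ with hR
  have hRr : (R : ℝ) = r / 2 := rfl
  have hR0 : 0 < R := by rw [← NNReal.coe_pos, hRr]; positivity
  have hsubc : closedBall z₀ (R : ℝ) ⊆ U :=
    (closedBall_subset_ball (by rw [hRr]; linarith)).trans hball
  have hci : CircleIntegrable G z₀ R := by
    refine ContinuousOn.circleIntegrable R.coe_nonneg (hc.mono ?_)
    exact sphere_subset_closedBall.trans hsubc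
  have hps := hasFPowerSeriesOn_cauchy_integral hci hR0
  have hdiff : DifferentiableAt ℂ
      (fun w => (2 * π * I : ℂ)⁻¹ • ∮ z in C(z₀, R), (z - w)⁻¹ • G z) z₀ :=
    hps.analyticAt.differentiableAt
  refine hdiff.congr_of_eventuallyEq ?_
  filter_upwards [ball_mem_nhds z₀ (NNReal.coe_pos.2 hR0)] with w hw'
  refine ext_inner_left ℂ fun y => ?_
  have h1 := Complex.two_pi_I_inv_smul_circleIntegral_sub_inv_smul_of_differentiable_on_off_countable
    (c := z₀) (R := R) (w := w) (f := fun z => inner ℂ y (G z)) countable_empty hw'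
    ((hw y).continuousOn.mono hsubc) (fun x hx => ((hw y).differentiableAt
      (hU.mem_nhds (hsubc (ball_subset_closedBall hx.1)))))
  have hint : CircleIntegrable (fun z => (z - w)⁻¹ • G z) z₀ R := by
    refine ContinuousOn.circleIntegrable R.coe_nonneg ?_
    have hcs : ContinuousOn G (sphere z₀ R) := hc.mono (sphere_subset_closedBall.trans hsubc)
    have hci : ContinuousOn (fun z : ℂ => (z - w)⁻¹) (sphere z₀ R) := ?_
    · exact ContinuousOn.smul hci hcs
    refine ContinuousOn.inv₀ (by fun_prop) ?_
    intro x hx hxw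
    rw [sub_eq_zero] at hxw
    rw [hxw] at hx
    rw [mem_sphere] at hx
    rw [mem_ball] at hw'
    linarith
  have h2 : inner ℂ y (∮ z in C(z₀, R), (z - w)⁻¹ • G z) =
      ∮ z in C(z₀, R), (z - w)⁻¹ • inner ℂ y (G z) := by
    have := ContinuousLinearMap.intervalIntegral_comp_comm (innerSL ℂ y : H →L[ℂ] ℂ) hint.out
    simp only [circleIntegral]
    rw [← innerSL_apply_apply ℂ y, ← this]
    simp
  show inner ℂ y (G w) = inner ℂ y ((2 * π * I : ℂ)⁻¹ • (∮ z in C(z₀, R), (z - w)⁻¹ • G z))
  rw [inner_smul_right, h2, ← smul_eq_mul, h1]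

end Vale.Agent.P352.BW.T
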