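import Vale.Agent.P352.BW.T.O2
import Vale.Agent.P352.BW.T.Spec
import Vale.Agent.P352.BW.T.Wd911
import Vale.Agent.P352.BW.T.T1
import Vale.Agent.P352.BW.T.H649.Rf
import Vale.Agent.P352.BW.T.H649.Nice
import Vale.Agent.P352.H746.Vjm

/-!
# P352 BWT [O3] (helper649), part 3: analytic continuation of the boosts on one-field vectors
-/

set_option linter.all false

noncomputable section

open MeasureTheory SchwartzMap Complex Filter Topology
open scoped SchwartzMap ComplexConjugate ENNReal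

namespace Vale.Agent.P352.BW.O649

open GF (Ix V Fn Fld Theory bas sim o)
open H246 H496 H746 H755 H15
open T (cb decay_cb o2 Ten op tp cp bq rq OStmt)
open UniformSpace (Completion)

/-! ### the values of the boosts on the two lines -/

lemma exp_half (t : ℝ) : exp (2 * Real.pi * ((t : ℂ) - I / 2)) =
    -((Real.exp (2 * Real.pi * t) : ℝ) : ℂ) := by
  have : 2 * (Real.pi : ℂ) * ((t : ℂ) - I / 2) = ((2 * Real.pi * t : ℝ) : ℂ) - Real.pi * I := by
    push_cast; ring
  rw [this, exp_sub, exp_pi_mul_I, ofReal_exp, div_neg, div_one]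

lemma exp_neg_half (t : ℝ) : exp (-(2 * Real.pi * ((t : ℂ) - I / 2))) =
    -((Real.exp (-(2 * Real.pi * t)) : ℝ) : ℂ) := by
  rw [exp_neg, exp_half, inv_neg, Real.exp_neg, ofReal_inv]

lemma cb_real (a b : V) (t : ℝ) (p : Mink) :
    cb a b (t : ℂ) p = fun j => ((lam (bi a b t) p j : ℝ) : ℂ) := by
  funext j
  rw [bi, lam_bst]
  unfold cb
  push_cast
  ring_nf

variable {a b : V} (ha : IsNull a) (hb : IsNull b) (hab : GF.mdot a b = 1)

include ha hb hab in
lemma cb_half (t : ℝ) (p : Mink) : cb a b ((t : ℂ) - I / 2) p =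
    fun j => ((lam (Rm a b) (lam (bi a b t) p) j : ℝ) : ℂ) := by
  funext j
  have e1 : GF.mdot a (lam (bi a b t) p).ofLp =
      (1 + (Real.exp (-(2 * Real.pi * t)) - 1)) * GF.mdot a p.ofLp := by
    rw [lam_sim]
    exact bst_a ha hb hab _ _ _
  have e2 : GF.mdot b (lam (bi a b t) p).ofLp =
      (1 + (Real.exp (2 * Real.pi * t) - 1)) * GF.mdot b p.ofLp := by
    rw [lam_sim]
    exact bst_b ha hb hab _ _ _
  rw [Rm, lam_bst, e1, e2, bi, lam_bst]
  unfold cb
  rw [exp_half, exp_neg_half]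
  push_cast
  ring

/-- the matrix of the boost with complex parameter -/
def mz (a b : V) (z : ℂ) (m n : Ix) : ℂ := (bas m 1 n : ℂ) +
  (exp (2 * Real.pi * z) - 1) * ((GF.eta m * b m * a n : ℝ) : ℂ) +
  (exp (-(2 * Real.pi * z)) - 1) * ((GF.eta m * a m * b n : ℝ) : ℂ)

lemma mz_real (a b : V) (t : ℝ) (m n : Ix) : mz a b t m n = ((bi a b t m n : ℝ) : ℂ) := by
  unfold mz bi bst
  simp only [Pi.add_apply, Pi.smul_apply, smul_eq_mul]
  push_cast
  ring

lemma sim_bas (L : Ix → V) (m : Ix) : sim 1 L 0 (bas m 1) = L m := by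
  funext n
  simp [sim, bas]

include ha hb hab in
lemma mz_half (t : ℝ) (m n : Ix) : mz a b ((t : ℂ) - I / 2) m n =
    ∑ r, ((bi a b t m r : ℝ) : ℂ) * ((rq a b r n : ℝ) : ℂ) := by
  have h1 : ∑ r, bi a b t m r * rq a b r n = sim 1 (rq a b) 0 (bi a b t m) n := by
    simp [sim]
  have h2 : sim 1 (rq a b) 0 (bi a b t m) = sim 1 (rq a b) 0 (sim 1 (bi a b t) 0 (bas m 1)) := by
    rw [sim_bas]
  have h3 : ∑ r, ((bi a b t m r : ℝ) : ℂ) * ((rq a b r n : ℝ) : ℂ) =
      ((∑ r, bi a b t m r * rq a b r n : ℝ) : ℂ) := by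
    push_cast; rfl
  rw [h3, h1, h2]
  unfold rq bi
  rw [bst_bst ha hb hab, sim_bas]
  unfold mz bst
  rw [exp_half, exp_neg_half]
  simp only [Pi.add_apply, Pi.smul_apply, smul_eq_mul]
  push_cast
  ring

/-- the tensor power of the complex boost -/
def cz {k : ℕ} (a b : V) (c : (Fin k → Ix) → ℂ) (z : ℂ) (ν : Fin k → Ix) : ℂ :=
  ∑ μ : Fin k → Ix, (∏ i, mz a b z (ν i) (μ i)) * c μ

lemma cz_real {k : ℕ} (a b : V) (c : (Fin k → Ix) → ℂ) (t : ℝ) (ν : Fin k → Ix) :
    cz a b c t ν = tp (bi a b t) c ν := by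
  unfold cz tp
  refine Finset.sum_congr rfl fun μ _ => ?_
  congr 1
  push_cast
  exact Finset.prod_congr rfl fun i _ => mz_real a b t _ _

include ha hb hab in
lemma cz_half {k : ℕ} (c : (Fin k → Ix) → ℂ) (t : ℝ) (ν : Fin k → Ix) :
    cz a b c ((t : ℂ) - I / 2) ν = tp (bi a b t) (tp (rq a b) c) ν := by
  unfold cz tp
  have h : ∀ μ : Fin k → Ix, (∏ i, mz a b ((t : ℂ) - I / 2) (ν i) (μ i)) =
      ∑ ρ : Fin k → Ix, ((∏ i, bi a b t (ν i) (ρ i) : ℝ) : ℂ) *
        ((∏ i, rq a b (ρ i) (μ i) : ℝ) : ℂ) := by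
    intro μ
    simp only [mz_half ha hb hab]
    rw [Finset.prod_univ_sum, Fintype.piFinset_univ]
    refine Finset.sum_congr rfl fun ρ _ => ?_
    push_cast
    rw [Finset.prod_mul_distrib]
  simp only [h]
  simp only [Finset.sum_mul, Finset.mul_sum]
  rw [Finset.sum_comm]
  refine Finset.sum_congr rfl fun ρ _ => Finset.sum_congr rfl fun μ _ => ?_
  ring

lemma nice_mz (a b : V) (m n : Ix) : Nice fun z => mz a b z m n := by
  unfold mz
  have h1 : Nice fun z : ℂ => exp (2 * Real.pi * z) := by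
    have := Nice.exp (2 * Real.pi)
    simpa using this
  have h2 : Nice fun z : ℂ => exp (-(2 * Real.pi * z)) := by
    have := Nice.exp (-(2 * Real.pi))
    simpa using this
  have h3 : ∀ (c : ℂ) (F : ℂ → ℂ), Nice F → Nice fun z => (F z - 1) * c := by
    intro c F hF
    have := (hF.add (Nice.const (-1))).mul (Nice.const c)
    simpa [sub_eq_add_neg] using this
  exact ((Nice.const _).add (h3 _ _ h1)).add (h3 _ _ h2)

lemma nice_cz {k : ℕ} (a b : V) (c : (Fin k → Ix) → ℂ) (ν : Fin k → Ix) :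
    Nice fun z => cz a b c z ν := by
  unfold cz
  refine Nice.sum _ fun μ _ => ?_
  exact (Nice.prod _ fun i _ => nice_mz a b (ν i) (μ i)).mul (Nice.const _)

/-! ### the momentum space functions of the boosted vectors -/

section mom

variable {μ : Measure Mink}

open Classical in
/-- the momentum space function `p ↦ F^(Λ_z⁻¹ p)` -/
def gz (a b : V) (μ : Measure Mink) (F : 𝓢(Mink, ℂ)) (z : ℂ) : Lp ℂ 2 μ :=
  if h : MemLp (fun p => cft F (cb a b z p)) 2 μ then h.toLp _ else 0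

include ha hb hab

lemma memLp_cb (temp : μ.HasTemperateGrowth) (cone : ∀ᵐ p ∂μ, p ∈ fwdCone) (F : 𝓢(Mink, ℂ))
    (hF : P352.IsTest (T.WM a b) F) {z : ℂ} (hz : z ∈ T.St) :
    MemLp (fun p => cft F (cb a b z p)) 2 μ := by
  obtain ⟨N, hN⟩ := exists_wt_memLp temp
  obtain ⟨C, r, hC, hr, h⟩ := decay_cb ha hb hab F hF N
  refine MemLp.of_le_mul (c := C * Real.exp (r * |z.re|)) hN
    (T.continuous_cft_cb_right a b F hF.1 z).aestronglyMeasurable ?_
  filter_upwards [cone] with p hp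
  rw [Real.norm_of_nonneg (wt_nonneg N p)]
  exact h p hp z hz

lemma coe_gz (temp : μ.HasTemperateGrowth) (cone : ∀ᵐ p ∂μ, p ∈ fwdCone) (F : 𝓢(Mink, ℂ))
    (hF : P352.IsTest (T.WM a b) F) {z : ℂ} (hz : z ∈ T.St) :
    gz a b μ F z =ᵐ[μ] fun p => cft F (cb a b z p) := by
  have h := memLp_cb ha hb hab temp cone F hF hz
  rw [gz, dif_pos h]
  exact h.coeFn_toLp

lemma inner_gz (temp : μ.HasTemperateGrowth) (cone : ∀ᵐ p ∂μ, p ∈ fwdCone) (F : 𝓢(Mink, ℂ))
    (hF : P352.IsTest (T.WM a b) F) {z : ℂ} (hz : z ∈ T.St) (y : Lp ℂ 2 μ) :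
    inner ℂ y (gz a b μ F z) = ∫ p, cft F (cb a b z p) * conj (y p) ∂μ := by
  rw [L2.inner_def]
  apply integral_congr_ae
  filter_upwards [coe_gz ha hb hab temp cone F hF hz] with p hp
  rw [hp, RCLike.inner_apply]

lemma nice_gz (temp : μ.HasTemperateGrowth) (cone : ∀ᵐ p ∂μ, p ∈ fwdCone) (F : 𝓢(Mink, ℂ))
    (hF : P352.IsTest (T.WM a b) F) (y : Lp ℂ 2 μ) :
    Nice fun z => inner ℂ y (gz a b μ F z) := by
  obtain ⟨h1, h2, C, r, hC, hr, h3⟩ := o2 ha hb hab temp cone F hF (Lp.memLp y).star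
  have he : ∀ z ∈ T.St, inner ℂ y (gz a b μ F z) =
      ∫ p, cft F (cb a b z p) * (star (y : Mink → ℂ)) p ∂μ := fun z hz => by
    rw [inner_gz ha hb hab temp cone F hF hz]
    rfl
  refine ⟨h1.congr he, h2.congr fun z hz => he z ⟨hz.1.le, hz.2.le⟩, C, r, hC, hr,
    fun z hz hz' => ?_⟩
  rw [he z ⟨hz, hz'⟩]
  exact h3 z ⟨hz, hz'⟩

lemma gz_real (temp : μ.HasTemperateGrowth) (cone : ∀ᵐ p ∂μ, p ∈ fwdCone) (F : 𝓢(Mink, ℂ))
    (hF : P352.IsTest (T.WM a b) F) (t : ℝ) :
    gz a b μ F t = toL temp (compLam (isLor_bi ha hb hab t) F) := by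
  apply Lp.ext
  have hz : (t : ℂ) ∈ T.St := by constructor <;> simp
  filter_upwards [coe_gz ha hb hab temp cone F hF hz,
    coeFn_toL temp (compLam (isLor_bi ha hb hab t) F)] with p h1 h2
  rw [h1, h2, cb_real, cft_ofReal, mft_compLam]

lemma gz_half (temp : μ.HasTemperateGrowth) (cone : ∀ᵐ p ∂μ, p ∈ fwdCone) (F : 𝓢(Mink, ℂ))
    (hF : P352.IsTest (T.WM a b) F) (t : ℝ) :
    gz a b μ F ((t : ℂ) - I / 2) =
      toL temp (compLam (isLor_bi ha hb hab t) (cR ha hb hab F)) := by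
  apply Lp.ext
  have hz : ((t : ℂ) - I / 2) ∈ T.St := by constructor <;> simp
  filter_upwards [coe_gz ha hb hab temp cone F hF hz,
    coeFn_toL temp (compLam (isLor_bi ha hb hab t) (cR ha hb hab F))] with p h1 h2
  rw [h1, h2, cb_half ha hb hab, cft_ofReal, mft_compLam, mft_cR]

/-- norm continuity on the closed strip -/
lemma cont_gz (temp : μ.HasTemperateGrowth) (cone : ∀ᵐ p ∂μ, p ∈ fwdCone) (F : 𝓢(Mink, ℂ))
    (hF : P352.IsTest (T.WM a b) F) : ContinuousOn (gz a b μ F) T.St := by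
  intro z₀ hz₀
  obtain ⟨N, hN⟩ := exists_wt_memLp temp
  obtain ⟨C, r, hC, hr, h⟩ := decay_cb ha hb hab F hF N
  have hsq : Integrable (fun p => (wt N p) ^ 2) μ := by
    have := hN.integrable_sq
    exact this
  have hnorm : ∀ z ∈ T.St, ‖gz a b μ F z - gz a b μ F z₀‖ ^ 2 =
      ∫ p, ‖cft F (cb a b z p) - cft F (cb a b z₀ p)‖ ^ 2 ∂μ := by
    intro z hz
    have e1 : inner ℂ (gz a b μ F z - gz a b μ F z₀) (gz a b μ F z - gz a b μ F z₀) =
        ∫ p, ((‖cft F (cb a b z p) - cft F (cb a b z₀ p)‖ ^ 2 : ℝ) : ℂ) ∂μ := by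
      rw [L2.inner_def]
      apply integral_congr_ae
      filter_upwards [coe_gz ha hb hab temp cone F hF hz, coe_gz ha hb hab temp cone F hF hz₀,
        Lp.coeFn_sub (gz a b μ F z) (gz a b μ F z₀)] with p h1 h2 h3
      rw [h3, Pi.sub_apply, h1, h2, inner_self_eq_norm_sq_to_K]
      norm_cast
    rw [inner_self_eq_norm_sq_to_K, integral_complex_ofReal] at e1
    apply Complex.ofReal_injective
    rw [← e1, ofReal_pow]
    rfl
  have hlim : Tendsto (fun z => ∫ p, ‖cft F (cb a b z p) - cft F (cb a b z₀ p)‖ ^ 2 ∂μ)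
      (𝓝[T.St] z₀) (𝓝 (∫ p, ‖cft F (cb a b z₀ p) - cft F (cb a b z₀ p)‖ ^ 2 ∂μ)) := by
    refine tendsto_integral_filter_of_dominated_convergence
      (fun p => (2 * (C * Real.exp (r * (|z₀.re| + 1)))) ^ 2 * (wt N p) ^ 2) ?_ ?_
      (hsq.const_mul _) ?_
    · refine Eventually.of_forall fun z => ?_
      exact (((T.continuous_cft_cb_right a b F hF.1 z).sub
        (T.continuous_cft_cb_right a b F hF.1 z₀)).norm.pow 2).aestronglyMeasurable
    · have hmem : {z : ℂ | |z.re| < |z₀.re| + 1} ∈ 𝓝 z₀ := by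
        apply IsOpen.mem_nhds
        · exact isOpen_lt (by fun_prop) continuous_const
        · show |z₀.re| < |z₀.re| + 1
          linarith
      filter_upwards [mem_nhdsWithin_of_mem_nhds hmem, self_mem_nhdsWithin] with z hz1 hz2
      filter_upwards [cone] with p hp
      have hb1 : ∀ w ∈ T.St, |w.re| ≤ |z₀.re| + 1 →
          ‖cft F (cb a b w p)‖ ≤ C * Real.exp (r * (|z₀.re| + 1)) * wt N p := by
        intro w hw hw'
        refine (h p hp w hw).trans ?_
        have := wt_nonneg N p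
        gcongr
      have e1 := hb1 z hz2 (le_of_lt hz1)
      have e2 := hb1 z₀ hz₀ (by linarith)
      rw [Real.norm_of_nonneg (by positivity), ← mul_pow]
      apply pow_le_pow_left₀ (norm_nonneg _)
      calc _ ≤ ‖cft F (cb a b z p)‖ + ‖cft F (cb a b z₀ p)‖ := norm_sub_le _ _
        _ ≤ _ := by linarith
    · refine Eventually.of_forall fun p => ?_
      have hc : Continuous fun z => ‖cft F (cb a b z p) - cft F (cb a b z₀ p)‖ ^ 2 :=
        (((T.differentiable_cft_cb a b F hF.1 p).continuous.sub continuous_const).norm.pow 2)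
      exact hc.continuousWithinAt
  have h0 : Tendsto (fun z => ‖gz a b μ F z - gz a b μ F z₀‖ ^ 2) (𝓝[T.St] z₀) (𝓝 0) := by
    have e : (∫ p, ‖cft F (cb a b z₀ p) - cft F (cb a b z₀ p)‖ ^ 2 ∂μ) = 0 := by simp
    rw [e] at hlim
    refine hlim.congr' ?_
    filter_upwards [self_mem_nhdsWithin] with z hz
    rw [hnorm z hz]
  have h1 : Tendsto (fun z => ‖gz a b μ F z - gz a b μ F z₀‖) (𝓝[T.St] z₀) (𝓝 0) := by
    have := h0.sqrt
    simpa using this
  exact tendsto_iff_norm_sub_tendsto_zero.2 h1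

end mom

/-! ### one-field vectors -/

section vec

variable {D : Type*} [NormedAddCommGroup D] [InnerProductSpace ℂ D] {Q : Theory D}
  {A : (V → V) → D → D} {k : ℕ} {Φ : (Fin k → Ix) → Fld D}

lemma isTest_of_in {W : Set V} {F : 𝓢(Mink, ℂ)} (h : In W (fl F)) :
    P352.IsTest {x : Mink | x.ofLp ∈ W} F := by
  obtain ⟨-, h1, h2⟩ := h
  rw [tsupport_fl] at h2
  refine ⟨?_, fun x hx => ?_⟩
  · have e : (F : Mink → ℂ) = fl F ∘ (EuclideanSpace.equiv (Fin 4) ℝ).toHomeomorph := by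
      funext x
      rfl
    rw [e]
    exact h1.comp_homeomorph _
  · exact h2 (show WithLp.toLp 2 x.ofLp ∈ tsupport F from hx)

lemma cp_bi (t : ℝ) (F : 𝓢(Mink, ℂ)) :
    cp (bi a b t) (fl F) = fl (compLam (isLor_bi ha hb hab t) F) := by
  funext x
  rw [cp, fl_apply, fl_apply, compLam_apply, lam_sim]

lemma cp_rq (F : 𝓢(Mink, ℂ)) : cp (rq a b) (fl F) = fl (cR ha hb hab F) := by
  rw [fl_cR]
  rfl

lemma coe_op (hΦ : Ten Q k Φ) (c : (Fin k → Ix) → ℂ) (F : 𝓢(Mink, ℂ)) :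
    ((op Φ c (fl F) Q.vac : D) : Completion D) = ∑ ν, c ν • kf (hΦ.fld ν) F := by
  unfold op
  have h := map_sum (Completion.toComplₗᵢ (𝕜 := ℂ) (E := D)) (fun μ => c μ • Φ μ (fl F) Q.vac)
    Finset.univ
  simp only [map_smul] at h
  exact h

include ha hb hab

lemma isLor_bq (t : ℝ) : GF.IsLor (bq a b t) := by
  refine isLor_bst ha hb hab ?_ ?_
  · rw [add_sub_cancel]; exact Real.exp_pos _
  · rw [add_sub_cancel, add_sub_cancel, ← Real.exp_add, neg_add_cancel, Real.exp_zero]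

lemma U_bq_bi (R : Rep Q A) (t : ℝ) (v : D) :
    Q.U 1 (bq a b t) 0 (Q.U 1 (bi a b t) 0 v) = v := by
  rw [R.mul 1 (bq a b t) 0 1 (bi a b t) 0 v one_pos one_pos (isLor_bq ha hb hab t)
    (isLor_bi ha hb hab t)]
  have e1 : (fun m => sim 1 (bq a b t) 0 (bi a b t m)) = GF.one := by
    funext m
    rw [← sim_bas (bi a b t) m]
    unfold bq bi
    rw [bst_bst ha hb hab, sim_bst]
    have h1 : Real.exp (2 * Real.pi * t) - 1 + (Real.exp (-(2 * Real.pi * t)) - 1) *
        (1 + (Real.exp (2 * Real.pi * t) - 1)) = 0 := by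
      have : Real.exp (-(2 * Real.pi * t)) * Real.exp (2 * Real.pi * t) = 1 := by
        rw [← Real.exp_add, neg_add_cancel, Real.exp_zero]
      linear_combination this
    have h2 : Real.exp (-(2 * Real.pi * t)) - 1 + (Real.exp (2 * Real.pi * t) - 1) *
        (1 + (Real.exp (-(2 * Real.pi * t)) - 1)) = 0 := by
      have : Real.exp (2 * Real.pi * t) * Real.exp (-(2 * Real.pi * t)) = 1 := by
        rw [← Real.exp_add, add_neg_cancel, Real.exp_zero]
      linear_combination this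
    rw [h1, h2]
    simp [GF.one]
  have e2 : sim 1 (bq a b t) 0 0 = 0 := by
    rw [bq, sim_bst]
    simp [GF.mdot]
  rw [e1, e2, one_mul]
  exact U1_zero_all v

lemma U_op (R : Rep Q A) (hΦ : Ten Q k Φ) (c : (Fin k → Ix) → ℂ) (F : 𝓢(Mink, ℂ)) (t : ℝ) :
    ((Q.U 1 (bq a b t) 0 (op Φ c (fl F) Q.vac) : D) : Completion D) =
      ∑ ν, tp (bi a b t) c ν • kf (hΦ.fld ν) (compLam (isLor_bi ha hb hab t) F) := by
  have h := (T.t1 Q A R).cov k Φ c (bi a b t) (fl F) Q.vac hΦ (isLor_bi ha hb hab t) (isTest_fl F)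
  rw [Q.U_vac 1 _ 0 one_pos (isLor_bi ha hb hab t)] at h
  rw [h, U_bq_bi ha hb hab R, cp_bi ha hb hab, coe_op hΦ]

end vec

end Vale.Agent.P352.BW.O649

namespace Vale.Agent.P352.BW.T

open GF (Ix V Fn Fld Theory bas sim)
open H246 H496 H746 H755 H15
open O649
open UniformSpace (Completion)

/-- **Block O.** -/
theorem o {D : Type*} [NormedAddCommGroup D] [InnerProductSpace ℂ D] {Q : Theory D}
    {A : (V → V) → D → D} : OStmt Q A := by
  intro R k Φ c f a b hΦ ha hb hab hf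
  obtain ⟨F, rfl⟩ := exists_fl hf.1
  have hF := isTest_of_in hf
  choose μ K using fun ν => exists_cvd (Q := Q) (kf (hΦ.fld ν)) (kf_cov (hΦ.fld ν))
  set G : ℂ → Completion D := fun z => ∑ ν, cz a b c z ν • (K ν).J (gz a b (μ ν) F z) with hG
  have hval : ∀ t : ℝ, G t = (Q.U 1 (bq a b t) 0 (op Φ c (fl F) Q.vac) : D) := by
    intro t
    rw [U_op ha hb hab R hΦ, hG]
    refine Finset.sum_congr rfl fun ν _ => ?_
    rw [cz_real, gz_real ha hb hab (K ν).temp (K ν).cone F hF, (K ν).J_toL]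
  have hval' : ∀ t : ℝ, G (t - Complex.I / 2) =
      (Q.U 1 (bq a b t) 0 (op Φ (tp (rq a b) c) (cp (rq a b) (fl F)) Q.vac) : D) := by
    intro t
    rw [cp_rq ha hb hab, U_op ha hb hab R hΦ, hG]
    refine Finset.sum_congr rfl fun ν _ => ?_
    rw [cz_half ha hb hab, gz_half ha hb hab (K ν).temp (K ν).cone F hF, (K ν).J_toL]
  have hc : ContinuousOn G Sm := by
    rw [hG]
    refine continuousOn_finset_sum _ fun ν _ => ?_
    exact (nice_cz a b c ν).cont.smul ((K ν).J.continuous.comp_continuousOn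
      (cont_gz ha hb hab (K ν).temp (K ν).cone F hF))
  have hn : ∀ y : Completion D, Nice fun z => inner ℂ y (G z) := by
    intro y
    have e : (fun z => inner ℂ y (G z)) = fun z => ∑ ν, cz a b c z ν *
        inner ℂ (ContinuousLinearMap.adjoint (K ν).J y) (gz a b (μ ν) F z) := by
      funext z
      rw [hG]
      simp only [inner_sum, inner_smul_right, ContinuousLinearMap.adjoint_inner_left]
    rw [e]
    exact Nice.sum _ fun ν _ => (nice_cz a b c ν).mul
      (nice_gz ha hb hab (K ν).temp (K ν).cone F hF _)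
  set C : ℝ := max ‖op Φ c (fl F) Q.vac‖ ‖op Φ (tp (rq a b) c) (cp (rq a b) (fl F)) Q.vac‖ with hC
  have hU : ∀ (t : ℝ) (v : D), ‖((Q.U 1 (bq a b t) 0 v : D) : Completion D)‖ = ‖v‖ := by
    intro t v
    rw [Completion.norm_coe]
    have h := Q.U_inner 1 (bq a b t) 0 v v one_pos (isLor_bq ha hb hab t)
    rw [inner_self_eq_norm_sq_to_K, inner_self_eq_norm_sq_to_K] at h
    have h2 : ‖Q.U 1 (bq a b t) 0 v‖ ^ 2 = ‖v‖ ^ 2 := by exact_mod_cast h
    exact (pow_left_inj₀ (norm_nonneg _) (norm_nonneg _) (by norm_num)).1 h2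
  have hb' : ∀ z ∈ Sm, ‖G z‖ ≤ C := by
    intro z hz
    have h1 : ‖inner ℂ (G z) (G z)‖ ≤ ‖G z‖ * C := by
      refine (hn (G z)).pl ?_ ?_ hz.1 hz.2
      · intro t
        refine (norm_inner_le_norm _ _).trans ?_
        rw [hval, hU]
        gcongr
        exact le_max_left _ _
      · intro t
        refine (norm_inner_le_norm _ _).trans ?_
        rw [hval', hU]
        gcongr
        exact le_max_right _ _
    have h2 : ‖inner ℂ (G z) (G z)‖ = ‖G z‖ * ‖G z‖ := by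
      rw [inner_self_eq_norm_sq_to_K, norm_pow, norm_algebraMap', norm_norm, pow_two]
    rw [h2] at h1
    by_cases h3 : ‖G z‖ = 0
    · rw [h3]
      exact (norm_nonneg _).trans (le_max_left _ _)
    · exact le_of_mul_le_mul_left h1 (lt_of_le_of_ne (norm_nonneg _) (Ne.symm h3))
  have hopen : IsOpen SmI := (isOpen_lt continuous_const Complex.continuous_im).inter
    (isOpen_lt Complex.continuous_im continuous_const)
  refine ⟨G, ?_, hc, ⟨C, hb'⟩, fun t => ⟨hval t, hval' t⟩⟩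
  exact nrm_diff hopen (hc.mono fun z hz => ⟨hz.1.le, hz.2.le⟩) fun y => (hn y).diff

end Vale.Agent.P352.BW.T

end
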