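import Vale.Agent.P352.BW.T.Net
import Vale.Agent.P352.BW.T.O

/-!
# P352 BWT: a local net has the Bisognano-Wichmann property, if the tensor fields generate
-/

set_option linter.all false

noncomputable section

namespace Vale.Agent.P352.BW.T

open UniformSpace (Completion)
open GF H246 H496 H755 H15

variable {D : Type*} [NormedAddCommGroup D] [InnerProductSpace ℂ D]
variable {Q : Theory D} {A : (V → V) → D → D}
  {𝒜 : Set V → VonNeumannAlgebra (Completion D)}

/-- **The theorem of Bisognano and Wichmann** for local nets of von Neumann algebras to which the
fields are affiliated. -/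
theorem net (hG : H846.TGen Q) (N : LNet0 Q A 𝒜) : LNet Q A 𝒜 := lnet_of o hG N

end Vale.Agent.P352.BW.T

end
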