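import Vale.Agent.P352.BW.T.TgDefs
import Vale.Agent.P352.BW.T.NetF

/-!
# P352 BWT: the Bisognano-Wichmann property of a local net, if the tensor fields generate;
no scaling dimensions
-/

set_option linter.all false

noncomputable section

open MeasureTheory SchwartzMap Filter Topology
open scoped SchwartzMap ComplexConjugate InnerProductSpace BoundedContinuousFunction

namespace Vale.Agent.P352.BW

open Vale.Agent.P132 (ModData expB jconj)
open UniformSpace (Completion)
open GF H246 H496 H755 H15

variable {D : Type*} [NormedAddCommGroup D] [InnerProductSpace ℂ D]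
variable {Q : Theory D} {A : (V → V) → D → D}
  {𝒜 : Set V → VonNeumannAlgebra (Completion D)}

/-- the theories generated by tensor fields with scaling dimensions are generated by tensor
fields -/
theorem TfGen.of_tgen (h : H846.TGen Q) : TfGen Q := fun S hv hS =>
  h S hv fun k _ Φ μ f v hI hf hvS => by
    have hT : T.Ten Q k Φ := T.ten_of hI
    exact hS k Φ μ f v ⟨hT.fld, hT.cov⟩ hf hvS

namespace T

lemma tf_cyc1 (hT : TfGen Q) (S : Submodule ℂ D) (hv : Q.vac ∈ S)
    (h : ∀ B f v, TF Q B → GF.IsTest f → v ∈ S → B f v ∈ S) : Dense (S : Set D) :=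
  hT S hv fun k Φ μ f v hI hf hvS => h _ f v ⟨k, Φ, μ, ⟨hI.1, hI.2⟩, rfl⟩ hf hvS

/-- the theory of the tensor fields -/
def tT1 (t1 : T1 Q) (hT : TfGen Q) : Theory D :=
  subT Q (TF Q) (fun _ => tf_fld) (tf_adj t1) (tf_cyc1 hT)

/-- Reeh-Schlieder for tensor fields and wedges -/
theorem r1 (h1 : T1Stmt Q A) (hR : Rep Q A) (hT : TfGen Q) (a b : V) (ha : IsNull a)
    (hb : IsNull b) (hab : GF.mdot a b = 1) (S : Submodule ℂ D) (hvac : Q.vac ∈ S)
    (hS : ∀ k Φ c f v, Ten Q k Φ → In (H496.Wdg a b 0) f → v ∈ S → op Φ c f v ∈ S) :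
    Dense (S : Set D) := by
  have t1 := h1 hR
  have hab' : GF.mdot b a = 1 := by rw [H755.md_comm]; exact hab
  have hBig : Big (MW (H496.Wdg a b 0)) := by
    have e : H496.Wdg a b 0 = {y : V | 0 < GF.mdot b y ∧ GF.mdot a y < 0} := by
      ext z
      show (GF.mdot a (z - 0) < 0 ∧ 0 < GF.mdot b (z - 0)) ↔ _
      rw [sub_zero]
      exact and_comm
    rw [e]
    refine big_two (c := a - b) one_pos one_pos ?_ ?_
    · rw [H755.md_sub, hab', hb.1, sub_zero]
    · rw [H755.md_sub, hab, ha.1, zero_sub]
  have hd : Dense (PS (tT1 t1 hT) (MW (H496.Wdg a b 0)) : Set D) := dense_big hBig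
  refine hd.mono fun v hv => ?_
  have hv' : PW (tT1 t1 hT) (MW (H496.Wdg a b 0)) v := hv
  induction hv' with
  | vac => exact hvac
  | add _ _ h1 h2 => exact S.add_mem (h1 ‹_›) (h2 ‹_›)
  | smul c _ h1 => exact S.smul_mem c (h1 ‹_›)
  | @fld B g v hB hg hw ih =>
    obtain ⟨k, Φ, μ, hΦ, rfl⟩ : TF Q B := hB
    have := hS k Φ (Pi.single μ 1) (fl g) v hΦ (In_fl.2 hg) (ih hw)
    rwa [op_single] at this

/-- the modular unitaries of a wedge algebra are the boosts -/
theorem bw_wal1 (hP : PStmt Q A) (h1 : T1Stmt Q A) (R : Rep Q A) (hG : TfGen Q) {a b : V}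
    {M : VonNeumannAlgebra (Completion D)} (E : ModData M (om Q)) (w : Wal Q a b M) (t : ℝ)
    (z : Completion D) : E.U t z = Ue Q 1 (bq a b t) 0 z := by
  have hU : UStmt Q A := ublock R
  have hco : ∀ t (v : D), Ue Q 1 (bq a b t) 0 (v : Completion D) =
      ((Q.U 1 (bq a b t) 0 v : D) : Completion D) := fun t v =>
    hU.coe 1 (bq a b t) 0 v one_pos (isLor_bq w.na w.nb w.nab t)
  have hcn : ∀ t, Continuous (Ue Q 1 (bq a b t) 0) := fun t => by
    obtain ⟨W, hW⟩ := hU.lin 1 (bq a b t) 0 one_pos (isLor_bq w.na w.nb w.nab t)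
    have : (fun z => W z) = Ue Q 1 (bq a b t) 0 := funext hW
    rw [← this]
    exact W.continuous
  have hadd : ∀ t (z w' : Completion D), Ue Q 1 (bq a b t) 0 (z + w') =
      Ue Q 1 (bq a b t) 0 z + Ue Q 1 (bq a b t) 0 w' := fun t z w' => by
    obtain ⟨W, hW⟩ := hU.lin 1 (bq a b t) 0 one_pos (isLor_bq w.na w.nb w.nab t)
    rw [← hW, ← hW, ← hW, map_add]
  have hsm : ∀ t (c : ℂ) (z : Completion D), Ue Q 1 (bq a b t) 0 (c • z) =
      c • Ue Q 1 (bq a b t) 0 z := fun t c z => by
    obtain ⟨W, hW⟩ := hU.lin 1 (bq a b t) 0 one_pos (isLor_bq w.na w.nb w.nab t)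
    rw [← hW, ← hW, map_smul]
  set S : Submodule ℂ D :=
    { carrier := {v | ∀ t, E.U t (v : Completion D) = Ue Q 1 (bq a b t) 0 (v : Completion D)}
      add_mem' := fun {x y} hx hy t => by
        rw [Completion.coe_add, map_add, hadd, hx t, hy t]
      zero_mem' := fun t => by
        have := hsm t 0 0
        rw [zero_smul, zero_smul] at this
        rw [Completion.coe_zero, map_zero, this]
      smul_mem' := fun c x hx t => by
        rw [Completion.coe_smul, map_smul, hsm, hx t] } with hS
  have hd : Dense (S : Set D) := by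
    refine r1 h1 R hG a b w.na w.nb w.nab S ?_ ?_
    · intro t
      rw [hco, Q.U_vac 1 _ 0 one_pos (isLor_bq w.na w.nb w.nab t)]
      exact E.U_xi t
    · intro k Φ c f v hΦ hf hv t
      rw [hco]
      refine hP R a b M E w k Φ c f v hΦ hf (fun t => ?_) t
      rw [← hco]
      exact hv t
  have hD : ∀ v : D, E.U t (v : Completion D) = Ue Q 1 (bq a b t) 0 (v : Completion D) := by
    intro v
    have hc : IsClosed {v : D | E.U t (v : Completion D) =
        Ue Q 1 (bq a b t) 0 (v : Completion D)} :=
      isClosed_eq ((E.U t).continuous.comp (Completion.continuous_coe D))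
        ((hcn t).comp (Completion.continuous_coe D))
    have : (S : Set D) ⊆ {v : D | E.U t (v : Completion D) =
        Ue Q 1 (bq a b t) 0 (v : Completion D)} := fun v hv => hv t
    exact closure_minimal this hc (hd v)
  exact Completion.induction_on z (isClosed_eq (E.U t).continuous (hcn t)) hD

/-- **The theorem of Bisognano and Wichmann** for local nets of von Neumann algebras to which the
fields are affiliated, if the vacuum is cyclic for the tensor fields. -/
theorem net1 (hG : TfGen Q) (N : LNet0 Q A 𝒜) : LNet Q A 𝒜 := by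
  have h1 : T1Stmt Q A := t1 Q A
  have hN : NStmt (Completion D) := n
  have hS : SStmt Q A := fun R => s (ublock R) h1 o m hN ablock R
  exact
    { N.toRep with
      fld := N.fld
      mono := N.mono
      cov := N.cov
      loc := N.loc
      bw := fun a b t L E z ha hb hab hL h => by
        have hL' : L = bq a b t := by
          apply mat_ext
          intro x
          rw [h, bq, sim_bst]
        rw [hL']
        exact bw_wal1 (p h1 hS) h1 N.toRep hG E (w N a b ha hb hab) t z
      reg := N.reg }

end T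

end Vale.Agent.P352.BW

end
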