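import Vale.Agent.P352.BW.T.M297
import Vale.Agent.P352.BW.Md

/-!
# P352 BWT, block M: affiliated operators and the modular data
-/

noncomputable section

open Filter Topology
open scoped ComplexConjugate InnerProductSpace BoundedContinuousFunction

namespace Vale.Agent.P352.BW.T

open Vale.Agent.P132
open UniformSpace (Completion)

variable {D : Type*} [NormedAddCommGroup D] [InnerProductSpace ℂ D]
variable {M : VonNeumannAlgebra (Completion D)} {Ω : D}

/-- **Block M, algebra**: `Δ^{1/2} X Ω = J X* Ω` for `X` affiliated to `M`. -/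
theorem mAff (E : ModData M (Ω : Completion D)) {X X' : D → D}
    (hX : ∀ v w, inner ℂ (X v) w = inner ℂ v (X' w)) (hA : Aff M X)
    (F G : ℝ →ᵇ ℂ) (hFG : ∀ t : ℝ, F t = Real.exp (t / 2) * G t) :
    E.Th G (E.J (X' Ω : D)) = E.Th F (X Ω : D) := by
  obtain ⟨X1, hX1, hM⟩ := hA
  have e : ∀ w, X1 w = X' w := fun w => by
    refine ext_inner_left ℂ fun v => ?_
    rw [← hX1, ← hX]
  refine aff_kms E (fun Y hY => ?_) F G hFG
  have h1 := hM Y hY Ω Ω
  rw [e] at h1
  rw [h1, ContinuousLinearMap.star_eq_adjoint, ContinuousLinearMap.adjoint_inner_left]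

/-- **Block M, commutant**: `Δ^{-1/2} X Ω = J X* Ω` for `X` affiliated to the commutant of `M`. -/
theorem mAff' (E : ModData M (Ω : Completion D)) {X X' : D → D}
    (hX : ∀ v w, inner ℂ (X v) w = inner ℂ v (X' w)) (hA : Aff M.commutant X)
    (F G : ℝ →ᵇ ℂ) (hFG : ∀ t : ℝ, F t = Real.exp (-(t / 2)) * G t) :
    E.Th G (E.J (X' Ω : D)) = E.Th F (X Ω : D) := by
  obtain ⟨X1, hX1, hM⟩ := hA
  have e : ∀ w, X1 w = X' w := fun w => by
    refine ext_inner_left ℂ fun v => ?_
    rw [← hX1, ← hX]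
  refine aff_kms' E (fun Y hY => ?_) F G hFG
  have hY' : Y ∈ M.commutant.commutant := by rwa [M.commutant_commutant]
  have h1 := hM Y hY' Ω Ω
  rw [e] at h1
  rw [h1, ContinuousLinearMap.star_eq_adjoint, ContinuousLinearMap.adjoint_inner_left]

end Vale.Agent.P352.BW.T

end
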