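import Vale.Agent.P132.Bd8.B2

/-!
# P352 BWT, block N (helper583): naturality of modular data, including the functional calculus and `J`
-/

set_option linter.all false
set_option autoImplicit false

noncomputable section

open MeasureTheory Filter Topology
open scoped ComplexConjugate InnerProductSpace BoundedContinuousFunction

namespace Vale.Agent.P352.BW.T

open Vale.Agent
open Vale.Agent.P132 (ModData expB)

universe u

variable {H : Type u} [NormedAddCommGroup H] [InnerProductSpace ℂ H] [CompleteSpace H]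
variable {M M' : VonNeumannAlgebra H} {ξ : H}

/-- Functional calculi with the same unitary group agree. -/
theorem nat_Th (E : ModData M ξ) (E' : ModData M' ξ) (W : H ≃ₗᵢ[ℂ] H)
    (hU : ∀ t z, W (E.U t z) = E'.U t (W z)) (F : ℝ →ᵇ ℂ) (z : H) :
    W (E.Th F z) = E'.Th F (W z) := by
  have key : ∀ v : H, ⟪v, E.Th F v⟫_ℂ = ⟪W v, E'.Th F (W v)⟫_ℂ := by
    intro v
    obtain ⟨μ, hμ, h1⟩ := E.spec v
    obtain ⟨μ', hμ', h2⟩ := E'.spec (W v)
    have hc : μ = μ' := by
      apply Measure.ext_of_charFun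
      ext t
      have e1 : charFun μ t = ∫ h, expB t h ∂μ := by
        rw [charFun_apply_real]
        congr 1
        ext h
        rw [P132.expB_apply]
        congr 1
        push_cast
        ring
      have e2 : charFun μ' t = ∫ h, expB t h ∂μ' := by
        rw [charFun_apply_real]
        congr 1
        ext h
        rw [P132.expB_apply]
        congr 1
        push_cast
        ring
      rw [e1, e2, ← h1, ← h2]
      change ⟪v, E.U t v⟫_ℂ = ⟪W v, E'.U t (W v)⟫_ℂ
      rw [← hU, W.inner_map_map]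
    rw [h1, h2, hc]
  let A : H →L[ℂ] H := E.Th F
  let B : H →L[ℂ] H :=
    (W.symm.toContinuousLinearEquiv : H →L[ℂ] H) ∘L (E'.Th F) ∘L (W.toContinuousLinearEquiv : H →L[ℂ] H)
  have hB : ∀ v, B v = W.symm (E'.Th F (W v)) := fun v => rfl
  have hAB : A = B := by
    have h1 : (A : H →ₗ[ℂ] H) = (B : H →ₗ[ℂ] H) := by
      rw [← ext_inner_map]
      intro x
      change ⟪A x, x⟫_ℂ = ⟪B x, x⟫_ℂ
      have e1 : ⟪x, A x⟫_ℂ = ⟪x, B x⟫_ℂ := by
        rw [hB, ← W.inner_map_map x (W.symm _), W.apply_symm_apply]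
        exact key x
      rw [← inner_conj_symm, e1, inner_conj_symm]
    exact ContinuousLinearMap.coe_injective h1
  have h3 : A z = B z := by rw [hAB]
  have h4 : E.Th F z = W.symm (E'.Th F (W z)) := h3
  rw [h4, W.apply_symm_apply]

/-- Naturality of the modular conjugation. -/
theorem nat_J (E : ModData M ξ) (E' : ModData M' ξ) (W : H ≃ₗᵢ[ℂ] H) (hξ : W ξ = ξ)
    (h1 : ∀ X ∈ M, ∃ Y ∈ M', ∀ z, Y (W z) = W (X z))
    (hU : ∀ t z, W (E.U t z) = E'.U t (W z)) (z : H) : W (E.J z) = E'.J (W z) := by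
  have hst : ∀ {X Y : H →L[ℂ] H}, (∀ z, Y (W z) = W (X z)) → ∀ z, star Y (W z) = W (star X z) := by
    intro X Y h z
    refine ext_inner_right ℂ fun w => ?_
    obtain ⟨w', rfl⟩ := W.surjective w
    rw [ContinuousLinearMap.star_eq_adjoint, ContinuousLinearMap.star_eq_adjoint,
      ContinuousLinearMap.adjoint_inner_left, h, W.inner_map_map, W.inner_map_map,
      ContinuousLinearMap.adjoint_inner_left]
  have hcl : IsClosed {z : H | W (E.J z) = E'.J (W z)} :=
    isClosed_eq (W.continuous.comp E.J.continuous) (E'.J.continuous.comp W.continuous)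
  have hsub : {ζ : H | ∃ a ∈ M, a ξ = ζ} ⊆ {z : H | W (E.J z) = E'.J (W z)} := by
    rintro _ ⟨b, hb, rfl⟩
    show W (E.J (b ξ)) = E'.J (W (b ξ))
    have ha : star b ∈ M := star_mem hb
    set a : H →L[ℂ] H := star b with hadef
    have hb' : b = star a := by rw [hadef, star_star]
    obtain ⟨Y, hY, hYW⟩ := h1 a ha
    have e0 : Y ξ = W (a ξ) := by
      have := hYW ξ
      rwa [hξ] at this
    have e1 : star Y ξ = W (star a ξ) := by
      have := hst hYW ξ
      rwa [hξ] at this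
    rw [hb', eq_comm, ← sub_eq_zero]
    apply E'.gd_zero
    intro G hG
    have k1 := E.kms a ha (ModData.gdE G hG) G (fun x => rfl)
    have k2 := E'.kms Y hY (ModData.gdE G hG) G (fun x => rfl)
    rw [map_sub, ← e1, k2, e0, ← nat_Th E E' W hU, ← nat_Th E E' W hU, k1, sub_self]
  have h3 := E.cyc.closure_eq ▸ hcl.closure_subset_iff.2 hsub
  exact h3 (Set.mem_univ z)

/-- All of it, from the uniqueness statement `EStmt`. -/
theorem nat_all
    (hE : ∀ (M M' : VonNeumannAlgebra H) (ξ : H) (E : ModData M ξ) (E' : ModData M' ξ)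
      (W : H ≃ₗᵢ[ℂ] H), W ξ = ξ → (∀ X ∈ M, ∃ Y ∈ M', ∀ z, Y (W z) = W (X z)) →
      (∀ Y ∈ M', ∃ X ∈ M, ∀ z, Y (W z) = W (X z)) → ∀ t z, W (E.U t z) = E'.U t (W z))
    (E : ModData M ξ) (E' : ModData M' ξ) (W : H ≃ₗᵢ[ℂ] H) (hξ : W ξ = ξ)
    (h1 : ∀ X ∈ M, ∃ Y ∈ M', ∀ z, Y (W z) = W (X z))
    (h2 : ∀ Y ∈ M', ∃ X ∈ M, ∀ z, Y (W z) = W (X z)) :
    (∀ t z, W (E.U t z) = E'.U t (W z)) ∧ (∀ F z, W (E.Th F z) = E'.Th F (W z)) ∧
      ∀ z, W (E.J z) = E'.J (W z) := by
  have hU := hE M M' ξ E E' W hξ h1 h2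
  exact ⟨hU, fun F z => nat_Th E E' W hU F z, fun z => nat_J E E' W hξ h1 hU z⟩

/-- Two systems of modular data of the same algebra and vector coincide. -/
theorem uniq_all
    (hE : ∀ (M M' : VonNeumannAlgebra H) (ξ : H) (E : ModData M ξ) (E' : ModData M' ξ)
      (W : H ≃ₗᵢ[ℂ] H), W ξ = ξ → (∀ X ∈ M, ∃ Y ∈ M', ∀ z, Y (W z) = W (X z)) →
      (∀ Y ∈ M', ∃ X ∈ M, ∀ z, Y (W z) = W (X z)) → ∀ t z, W (E.U t z) = E'.U t (W z))
    (E E' : ModData M ξ) :
    (∀ t z, E.U t z = E'.U t z) ∧ (∀ F z, E.Th F z = E'.Th F z) ∧ ∀ z, E.J z = E'.J z := by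
  have := nat_all hE E E' (LinearIsometryEquiv.refl ℂ H) rfl (fun X hX => ⟨X, hX, fun z => rfl⟩)
    (fun X hX => ⟨X, hX, fun z => rfl⟩)
  exact this

/-- Modular data of different algebras with the same unitary group and a common dense set of
pairs `(x ξ, star x ξ)` (one algebra contained in the other) have the same `J`. -/
theorem J_eq_of_le (E : ModData M ξ) (E' : ModData M' ξ) (hle : ∀ X ∈ M, X ∈ M')
    (hU : ∀ t z, E.U t z = E'.U t z) (z : H) : E.J z = E'.J z :=
  nat_J E E' (LinearIsometryEquiv.refl ℂ H) rfl (fun X hX => ⟨X, hle X hX, fun z => rfl⟩) hU z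

end Vale.Agent.P352.BW.T

end
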