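import Vale.Agent.P352.BW.T.Spec
import Vale.Agent.P352.BW.T.N
import Vale.Agent.P352.BW.E

/-! # P352 BWT, block N: adapter (helper583) -/

open Vale.Agent.P132 (ModData)

namespace Vale.Agent.P352.BW.T

theorem n {H : Type*} [NormedAddCommGroup H] [InnerProductSpace ℂ H] [CompleteSpace H] :
    NStmt H := by
  intro M ξ E W hξ h1 h2
  have hE : EStmt H := eblock
  have hU := hE M M ξ E E W hξ h1 h2
  exact ⟨fun F z => nat_Th E E W hU F z, fun z => nat_J E E W hξ h1 hU z⟩

end Vale.Agent.P352.BW.T
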