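import Vale.Agent.P352.BW.Defs
import Vale.Agent.P352.H246.Part
import Vale.Agent.P352.H246.Dens
import Vale.Agent.P352.H246.Alg

/-!
# P352 BWT [R], [R2]: Reeh-Schlieder for closed subspaces, and the theory of a class of fields
(helper66)
-/

set_option linter.all false

noncomputable section

open MeasureTheory SchwartzMap Filter Topology
open scoped SchwartzMap ComplexConjugate InnerProductSpace

namespace Vale.Agent.P352.BW

open UniformSpace (Completion)
open H246
open GF (Ix V Fn)

variable {D : Type*} [NormedAddCommGroup D] [InnerProductSpace ℂ D]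

/-- a closed subspace that contains the vacuum and is invariant (on `D`) under the fields in a
nonempty open set is everything -/
theorem rs_sub (Q : GF.Theory D) {K : Submodule ℂ (Completion D)}
    (hK : IsClosed (K : Set (Completion D))) (hvac : om Q ∈ K) {O : Set V} (hO : IsOpen O)
    (hne : O.Nonempty) (hinv : ∀ B f (v : D), Q.fld B → In O f → (v : Completion D) ∈ K →
      ((B f v : D) : Completion D) ∈ K) : K = ⊤ := by
  obtain ⟨x0', hx0'⟩ := hne
  set x0 : Mink := WithLp.toLp 2 x0' with hx0
  have hMO : IsOpen (MW O) := hO.preimage (PiLp.continuous_ofLp 2 _)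
  obtain ⟨r, hr, hball⟩ := Metric.isOpen_iff.1 hMO x0 hx0'
  set ε : ℝ := r / 2 with hε
  have hε0 : 0 < ε := by positivity
  haveI : CompleteSpace K := hK.completeSpace_coe
  have hKK : ∀ x : Completion D, (∀ y ∈ Kᗮ, ⟪y, x⟫_ℂ = 0) → x ∈ K := by
    intro x hx
    rw [← Submodule.orthogonal_orthogonal K, Submodule.mem_orthogonal]
    exact hx
  -- the vectors
  have key : ∀ v, PW Q Set.univ v → ∀ a : Mink, ((U1 Q a v : D) : Completion D) ∈ K := by
    intro v hv
    induction hv with
    | vac =>
      intro a
      rw [U1_vac]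
      exact hvac
    | add _ _ h1 h2 =>
      intro a
      rw [U1_add, Completion.coe_add]
      exact K.add_mem (h1 a) (h2 a)
    | smul c _ h1 =>
      intro a
      rw [U1_smul, Completion.coe_smul]
      exact K.smul_mem c (h1 a)
    | @fld B g v hB hg hv ih =>
      -- fields with support near `x0`
      have hsm : ∀ f : 𝓢(Mink, ℂ), IsTest (Metric.ball x0 ε) f → ∀ b a : Mink,
          ((U1 Q a (B (fl f) (U1 Q b v)) : D) : Completion D) ∈ K := by
        intro f hf b a
        refine hKK _ fun y hy => ?_
        refine (hol_vec (Q := Q) y (B (fl f) (U1 Q b v))).unique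
          (O := Metric.ball 0 ε) Metric.isOpen_ball ⟨0, Metric.mem_ball_self hε0⟩ ?_ a
        intro a ha
        have e1 : U1 Q a (B (fl f) (U1 Q b v)) = B (fl (tauS a f)) (U1 Q a (U1 Q b v)) :=
          U_fld hB f a _
        have e2 : IsTest (MW O) (tauS a f) := by
          refine hf.tauS a fun x hx => hball ?_
          rw [Metric.mem_ball, dist_eq_norm] at hx ⊢
          rw [Metric.mem_ball, dist_zero_right] at ha
          calc ‖x + a - x0‖ = ‖(x - x0) + a‖ := by congr 1; abel
            _ ≤ ‖x - x0‖ + ‖a‖ := norm_add_le _ _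
            _ < ε + ε := add_lt_add hx ha
            _ = r := by rw [hε]; ring
        have e3 : ((U1 Q a (B (fl f) (U1 Q b v)) : D) : Completion D) ∈ K := by
          rw [e1]
          refine hinv B _ _ hB (In_fl.2 e2) ?_
          rw [U1_U1 hv]
          exact ih _
        exact Submodule.inner_left_of_mem_orthogonal e3 hy
      -- all fields
      obtain ⟨U, hU, hKU, hall⟩ := part_induct
        (P := fun f => ∀ a : Mink, ((U1 Q a (B (fl f) v) : D) : Completion D) ∈ K)
        (K := tsupport g) (by
          intro a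
          have h0 : U1 Q a (0 : D) = 0 := by
            have := U1_smul (Q := Q) a 0 (0 : D)
            rwa [zero_smul, zero_smul] at this
          rw [fld_zero hB, h0, Completion.coe_zero]
          exact K.zero_mem) (by
          intro f1 f2 _ _ h1 h2 a
          rw [fld_addf hB, U1_add, Completion.coe_add]
          exact K.add_mem (h1 a) (h2 a)) hg.1 (by
          intro x _
          refine ⟨Metric.ball x ε, Metric.isOpen_ball, Metric.mem_ball_self hε0, ?_⟩
          intro f hf a
          have e1 : IsTest (Metric.ball x0 ε) (tauS (x0 - x) f) := by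
            refine hf.tauS _ fun y hy => ?_
            rw [Metric.mem_ball, dist_eq_norm] at hy ⊢
            calc ‖y + (x0 - x) - x0‖ = ‖y - x‖ := by congr 1; abel
              _ < ε := hy
          have e2 := hsm _ e1 (x0 - x) (a + (x - x0))
          have e3 : B (fl (tauS (x0 - x) f)) (U1 Q (x0 - x) v) = U1 Q (x0 - x) (B (fl f) v) :=
            (U_fld hB f (x0 - x) v).symm
          have e4 : PW Q Set.univ (B (fl f) v) := .fld hB (isTest_univ hf) hv
          rw [e3, U1_U1 e4] at e2
          have e5 : a + (x - x0) + (x0 - x) = a := by abel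
          rwa [e5] at e2)
      exact hall g ⟨hg.1, hKU⟩
  have hd : Dense ((fun v : D => (v : Completion D)) '' (PS Q Set.univ : Set D)) :=
    (Completion.denseRange_coe).dense_image (Completion.continuous_coe D) dense_PS
  have hsub : ((fun v : D => (v : Completion D)) '' (PS Q Set.univ : Set D)) ⊆
      (K : Set (Completion D)) := by
    rintro _ ⟨v, hv, rfl⟩
    have h1 := key v hv 0
    rwa [U1_zero hv] at h1
  rw [eq_top_iff]
  intro x _
  exact closure_minimal hsub hK (hd x)

/-- a linear isometry (or any bounded operator) that fixes the vacuum and, on `D`, the vectors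
`B f v`, `In O f`, as soon as it fixes `v`, is the identity -/
theorem rs_fix (Q : GF.Theory D) (Z : Completion D →L[ℂ] Completion D) (hvac : Z (om Q) = om Q)
    {O : Set V} (hO : IsOpen O) (hne : O.Nonempty)
    (hinv : ∀ B f (v : D), Q.fld B → In O f → Z (v : Completion D) = v →
      Z ((B f v : D) : Completion D) = (B f v : D)) (z : Completion D) : Z z = z := by
  set K : Submodule ℂ (Completion D) := LinearMap.ker ((Z - 1 : Completion D →L[ℂ] Completion D) :
    Completion D →ₗ[ℂ] Completion D) with hKd
  have hm : ∀ x, x ∈ K ↔ Z x = x := by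
    intro x
    rw [hKd, LinearMap.mem_ker]
    show Z x - x = 0 ↔ _
    exact sub_eq_zero
  have hKc : IsClosed (K : Set (Completion D)) := by
    have : (K : Set (Completion D)) = {x | Z x = x} := by
      ext x; exact hm x
    rw [this]
    exact isClosed_eq Z.continuous continuous_id
  have h := rs_sub Q hKc ((hm _).2 hvac) hO hne fun B f v hB hf hv =>
    (hm _).2 (hinv B f v hB hf ((hm _).1 hv))
  exact (hm z).1 (by rw [h]; trivial)

/-- the theory of the fields of a class `F`, for which the vacuum is cyclic -/
def subT (Q : GF.Theory D) (F : GF.Fld D → Prop) (h1 : ∀ A, F A → Q.fld A)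
    (h2 : ∀ A, F A → ∃ B, F B ∧ ∀ f v w, GF.IsTest f →
      inner ℂ (A f v) w = inner ℂ v (B (GF.bar f) w))
    (h3 : ∀ S : Submodule ℂ D, Q.vac ∈ S →
      (∀ A f v, F A → GF.IsTest f → v ∈ S → A f v ∈ S) → Dense (S : Set D)) : GF.Theory D :=
  { Q with
    fld := F
    bose := fun A => Q.bose A ∧ F A
    cyclic := h3
    lin := fun A f g c v hA hf hg => Q.lin A f g c v (h1 A hA) hf hg
    cont := fun A v hA => Q.cont A v (h1 A hA)
    adj := h2
    bose_fld := fun A hA => hA.2
    loc := fun A B f g v hA hB hf hg hs => Q.loc A B f g v hA.1 (h1 B hB) hf hg hs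
    transl := fun A a f v hA hf => Q.transl A a f v (h1 A hA) hf }

section

variable (Q : GF.Theory D) (F : GF.Fld D → Prop) (h1 : ∀ A, F A → Q.fld A)
  (h2 : ∀ A, F A → ∃ B, F B ∧ ∀ f v w, GF.IsTest f →
      inner ℂ (A f v) w = inner ℂ v (B (GF.bar f) w))
  (h3 : ∀ S : Submodule ℂ D, Q.vac ∈ S →
      (∀ A f v, F A → GF.IsTest f → v ∈ S → A f v ∈ S) → Dense (S : Set D))

@[simp] lemma subT_vac : (subT Q F h1 h2 h3).vac = Q.vac := rfl
@[simp] lemma subT_fld : (subT Q F h1 h2 h3).fld = F := rfl
@[simp] lemma subT_U : (subT Q F h1 h2 h3).U = Q.U := rfl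
@[simp] lemma subT_om : om (subT Q F h1 h2 h3) = om Q := rfl

include h1 h2 h3 in
/-- `rs_sub` for a class of fields -/
theorem rs_subF {K : Submodule ℂ (Completion D)}
    (hK : IsClosed (K : Set (Completion D))) (hvac : om Q ∈ K) {O : Set V} (hO : IsOpen O)
    (hne : O.Nonempty) (hinv : ∀ B f (v : D), F B → In O f → (v : Completion D) ∈ K →
      ((B f v : D) : Completion D) ∈ K) : K = ⊤ :=
  rs_sub (subT Q F h1 h2 h3) hK hvac hO hne hinv

include h1 h2 h3 in
/-- `rs_fix` for a class of fields -/
theorem rs_fixF (Z : Completion D →L[ℂ] Completion D) (hvac : Z (om Q) = om Q)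
    {O : Set V} (hO : IsOpen O) (hne : O.Nonempty)
    (hinv : ∀ B f (v : D), F B → In O f → Z (v : Completion D) = v →
      Z ((B f v : D) : Completion D) = (B f v : D)) (z : Completion D) : Z z = z :=
  rs_fix (subT Q F h1 h2 h3) Z hvac hO hne hinv z

end

end Vale.Agent.P352.BW

end
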