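import Vale.Agent.P352.BW.T.Spec
import Vale.Agent.P352.BW.T.Rs
import Vale.Agent.P352.H496.Br5

/-!
# P352 BWT [R]: Reeh-Schlieder for tensor fields and wedges (helper66)
-/

set_option linter.all false

noncomputable section

open MeasureTheory SchwartzMap Filter Topology
open scoped SchwartzMap ComplexConjugate InnerProductSpace

namespace Vale.Agent.P352.BW.T

open UniformSpace (Completion)
open GF H246 H496 H755 H15

variable {D : Type*} [NormedAddCommGroup D] [InnerProductSpace ℂ D]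
variable {Q : Theory D} {A : (V → V) → D → D}

/-- the components of the tensor fields -/
def TF (Q : Theory D) (B : Fld D) : Prop :=
  ∃ (k : ℕ) (Φ : (Fin k → Ix) → Fld D) (μ : Fin k → Ix), Ten Q k Φ ∧ B = Φ μ

lemma tf_fld {B : Fld D} (h : TF Q B) : Q.fld B := by
  obtain ⟨k, Φ, μ, hΦ, rfl⟩ := h
  exact hΦ.fld μ

lemma op_single {k : ℕ} (Φ : (Fin k → Ix) → Fld D) (μ : Fin k → Ix) (f : Fn) (v : D) :
    op Φ (Pi.single μ 1) f v = Φ μ f v := by
  classical
  unfold op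
  rw [Finset.sum_eq_single μ]
  · rw [Pi.single_eq_same, one_smul]
  · intro ν _ hν
    rw [Pi.single_eq_of_ne hν, zero_smul]
  · intro h
    exact absurd (Finset.mem_univ μ) h

lemma op_single' {k : ℕ} (Φ : (Fin k → Ix) → Fld D) (μ : Fin k → Ix) (f : Fn) (v : D) :
    op Φ (fun ν => conj ((Pi.single μ 1 : (Fin k → Ix) → ℂ) ν)) f v = Φ μ f v := by
  classical
  have : (fun ν => conj ((Pi.single μ 1 : (Fin k → Ix) → ℂ) ν)) = Pi.single μ 1 := by
    funext ν
    by_cases h : ν = μ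
    · subst h; simp
    · simp [Pi.single_eq_of_ne h]
  rw [this, op_single]

lemma tf_adj (t1 : T1 Q) (B : Fld D) (h : TF Q B) : ∃ B', TF Q B' ∧ ∀ f v w, GF.IsTest f →
    inner ℂ (B f v) w = inner ℂ v (B' (GF.bar f) w) := by
  classical
  obtain ⟨k, Φ, μ, hΦ, rfl⟩ := h
  obtain ⟨Ψ, hΨ, hadj⟩ := t1.adj k Φ hΦ
  refine ⟨Ψ μ, ⟨k, Ψ, μ, hΨ, rfl⟩, fun f v w hf => ?_⟩
  have := hadj (Pi.single μ 1) f v w hf
  rwa [op_single, op_single'] at this

lemma tf_cyc (t1 : T1 Q) (hT : H846.TGen Q) (S : Submodule ℂ D) (hv : Q.vac ∈ S)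
    (h : ∀ B f v, TF Q B → GF.IsTest f → v ∈ S → B f v ∈ S) : Dense (S : Set D) :=
  hT S hv fun k d Φ μ f v hI hf hvS => h _ f v ⟨k, Φ, μ, t1.ten k d Φ hI, rfl⟩ hf hvS

/-- the theory of the tensor fields -/
def tT (t1 : T1 Q) (hT : H846.TGen Q) : Theory D :=
  subT Q (TF Q) (fun _ => tf_fld) (tf_adj t1) (tf_cyc t1 hT)

/-- **block R** -/
theorem r (h1 : T1Stmt Q A) : RStmt Q A := by
  intro hR hT a b ha hb hab S hvac hS
  have t1 := h1 hR
  have hab' : GF.mdot b a = 1 := by rw [H755.md_comm]; exact hab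
  have hBig : Big (MW (H496.Wdg a b 0)) := by
    have e : H496.Wdg a b 0 = {y : V | 0 < GF.mdot b y ∧ GF.mdot a y < 0} := by
      ext z
      show (GF.mdot a (z - 0) < 0 ∧ 0 < GF.mdot b (z - 0)) ↔ _
      rw [sub_zero]
      exact and_comm
    rw [e]
    refine big_two (c := a - b) one_pos one_pos ?_ ?_
    · rw [H755.md_sub, hab', hb.1, sub_zero]
    · rw [H755.md_sub, hab, ha.1, zero_sub]
  have hd : Dense (PS (tT t1 hT) (MW (H496.Wdg a b 0)) : Set D) := dense_big hBig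
  refine hd.mono fun v hv => ?_
  have hv' : PW (tT t1 hT) (MW (H496.Wdg a b 0)) v := hv
  induction hv' with
  | vac => exact hvac
  | add _ _ h1 h2 => exact S.add_mem (h1 ‹_›) (h2 ‹_›)
  | smul c _ h1 => exact S.smul_mem c (h1 ‹_›)
  | @fld B g v hB hg hw ih =>
    obtain ⟨k, Φ, μ, hΦ, rfl⟩ : TF Q B := hB
    have := hS k Φ (Pi.single μ 1) (fl g) v hΦ (In_fl.2 hg) (ih hw)
    rwa [op_single] at this

end Vale.Agent.P352.BW.T

end
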