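import Vale.Agent.P352.BW.T.Spec
import Vale.Agent.P352.BW.T.N
import Vale.Agent.P352.BW.U
import Vale.Agent.P352.BW.E
import Vale.Agent.P352.BW.H118.Prod

/-!
# P352 BWT: block P, products of one-field operators
-/

set_option linter.all false

noncomputable section

open MeasureTheory Filter Topology
open scoped ComplexConjugate InnerProductSpace BoundedContinuousFunction

namespace Vale.Agent.P352.BW.T

open Vale.Agent.P132 (ModData expB jconj)
open UniformSpace (Completion)
open GF H246 H496 H755 H15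

variable {D : Type*} [NormedAddCommGroup D] [InnerProductSpace ℂ D]
variable {Q : Theory D} {A : (V → V) → D → D}

lemma bst_bst {a b : V} (ha : IsNull a) (hb : IsNull b) (hab : GF.mdot a b = 1) (α β α' β' : ℝ) :
    (fun m => sim 1 (bst a b α β) 0 (bst a b α' β' m)) =
      bst a b (α + α' + α * α') (β + β' + β * β') := by
  funext m
  have hba : GF.mdot b a = 1 := by rw [md_comm]; exact hab
  have h2 : GF.mdot a (bas m 1) = eta m * a m := md_bas a m
  have h3 : GF.mdot b (bas m 1) = eta m * b m := md_bas b m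
  rw [sim_bst]
  unfold bst
  simp only [md_add, md_smul, h2, h3, ha.1, hb.1, hab, hba]
  funext n
  simp only [Pi.add_apply, Pi.smul_apply, smul_eq_mul]
  ring

lemma isLor_bq {a b : V} (ha : IsNull a) (hb : IsNull b) (hab : GF.mdot a b = 1) (t : ℝ) :
    IsLor (bq a b t) := by
  refine isLor_bst ha hb hab ?_ ?_
  · have := Real.exp_pos (-(2 * Real.pi * t)); linarith
  · have : Real.exp (-(2 * Real.pi * t)) * Real.exp (2 * Real.pi * t) = 1 := by
      rw [← Real.exp_add]; simp
    linear_combination this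

lemma bq_add {a b : V} (ha : IsNull a) (hb : IsNull b) (hab : GF.mdot a b = 1) (s t : ℝ) :
    (fun m => sim 1 (bq a b s) 0 (bq a b t m)) = bq a b (s + t) := by
  unfold bq
  rw [bst_bst ha hb hab]
  have e1 : Real.exp (-(2 * Real.pi * (s + t))) =
      Real.exp (-(2 * Real.pi * s)) * Real.exp (-(2 * Real.pi * t)) := by
    rw [← Real.exp_add]; ring_nf
  have e2 : Real.exp (2 * Real.pi * (s + t)) =
      Real.exp (2 * Real.pi * s) * Real.exp (2 * Real.pi * t) := by
    rw [← Real.exp_add]; ring_nf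
  rw [e1, e2]
  congr 1 <;> ring

lemma bq_zero (a b : V) : bq a b 0 = GF.one := by
  unfold bq bst GF.one
  funext m
  simp

lemma Ue_bq_add (hU : UStmt Q A) {a b : V} (ha : IsNull a) (hb : IsNull b)
    (hab : GF.mdot a b = 1) (s t : ℝ) (z : Completion D) :
    Ue Q 1 (bq a b s) 0 (Ue Q 1 (bq a b t) 0 z) = Ue Q 1 (bq a b (s + t)) 0 z := by
  rw [hU.mul 1 _ 0 1 _ 0 z one_pos one_pos (isLor_bq ha hb hab s) (isLor_bq ha hb hab t),
    bq_add ha hb hab]
  have : sim 1 (bq a b s) 0 0 = 0 := by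
    funext n; simp [sim]
  rw [this, one_mul]

lemma Ue_bq_zero (hU : UStmt Q A) {a b : V} (ha : IsNull a) (hb : IsNull b)
    (hab : GF.mdot a b = 1) (z : Completion D) : Ue Q 1 (bq a b 0) 0 z = z := by
  obtain ⟨W, hW⟩ := hU.lin 1 (bq a b 0) 0 one_pos (isLor_bq ha hb hab 0)
  apply W.injective
  rw [hW, hW, Ue_bq_add hU ha hb hab, add_zero]

lemma Ue_bq_neg (hU : UStmt Q A) {a b : V} (ha : IsNull a) (hb : IsNull b)
    (hab : GF.mdot a b = 1) (t : ℝ) (z : Completion D) :
    Ue Q 1 (bq a b t) 0 (Ue Q 1 (bq a b (-t)) 0 z) = z := by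
  rw [Ue_bq_add hU ha hb hab, add_neg_cancel, Ue_bq_zero hU ha hb hab]

lemma Ue_bq_neg' (hU : UStmt Q A) {a b : V} (ha : IsNull a) (hb : IsNull b)
    (hab : GF.mdot a b = 1) (t : ℝ) (z : Completion D) :
    Ue Q 1 (bq a b (-t)) 0 (Ue Q 1 (bq a b t) 0 z) = z := by
  rw [Ue_bq_add hU ha hb hab, neg_add_cancel, Ue_bq_zero hU ha hb hab]

/-- block P -/
theorem p (hT : T1Stmt Q A) (hS : SStmt Q A) : PStmt Q A := by
  intro R a b M E w k Φ c f v hΦ hf hv t
  have hU : UStmt Q A := ublock R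
  have ha := w.na
  have hb := w.nb
  have hab := w.nab
  obtain ⟨W, hW⟩ := hU.lin 1 (bq a b t) 0 one_pos (isLor_bq ha hb hab t)
  have hWs : ∀ z, W.symm z = Ue Q 1 (bq a b (-t)) 0 z := by
    intro z
    apply W.injective
    rw [W.apply_symm_apply, hW, Ue_bq_neg hU ha hb hab]
  set Wc : Completion D →L[ℂ] Completion D := W.toContinuousLinearEquiv.toContinuousLinearMap with hWc
  set Ws : Completion D →L[ℂ] Completion D := W.symm.toContinuousLinearEquiv.toContinuousLinearMap with hWsd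
  have eWc : ∀ z, Wc z = W z := fun z => rfl
  have eWs : ∀ z, Ws z = W.symm z := fun z => rfl
  set Z : Completion D →L[ℂ] Completion D := Ws * E.U t with hZd
  have eZ : ∀ z, Z z = W.symm (E.U t z) := fun z => rfl
  have hcom : ∀ Y ∈ M.commutant, Wc * Y * Ws ∈ M.commutant := by
    intro Y hY
    rw [VonNeumannAlgebra.mem_commutant_iff] at hY ⊢
    intro X hX
    obtain ⟨X1, hX1, h1⟩ := w.cov (-t) X hX
    refine ContinuousLinearMap.ext fun z => ?_
    show X (W (Y (W.symm z))) = W (Y (W.symm (X z)))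
    have h2 : ∀ z, X (W z) = W (X1 z) := by
      intro z
      have := h1 (W z)
      rw [← hWs, W.symm_apply_apply, ← hWs] at this
      rw [this, W.apply_symm_apply]
    have h3 : X1 (W.symm z) = W.symm (X z) := by
      apply W.injective
      rw [← h2, W.apply_symm_apply, W.apply_symm_apply]
    have h4 : X1 (Y (W.symm z)) = Y (X1 (W.symm z)) :=
      congrArg (fun T : Completion D →L[ℂ] Completion D => T (W.symm z)) (hY X1 hX1)
    rw [h2, h4, h3]
  have hZZ : ∀ z w', (⟪Z z, Z w'⟫_ℂ : ℂ) = ⟪z, w'⟫_ℂ := by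
    intro z w'
    rw [eZ, eZ, W.symm.inner_map_map, E.inner_U_U]
  have hvac : Z ((Q.vac : D) : Completion D) = ((Q.vac : D) : Completion D) := by
    rw [eZ]
    have h1 : E.U t ((Q.vac : D) : Completion D) = ((Q.vac : D) : Completion D) := E.U_xi t
    rw [h1]
    apply W.injective
    rw [W.apply_symm_apply, hW]
    exact (hU.vac 1 (bq a b t) 0 one_pos (isLor_bq ha hb hab t)).symm
  have fix : ∀ u : D, E.U t (u : Completion D) = ((Q.U 1 (bq a b t) 0 u : D) : Completion D) ↔
      Z (u : Completion D) = (u : Completion D) := by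
    intro u
    rw [eZ, ← hU.coe 1 (bq a b t) 0 u one_pos (isLor_bq ha hb hab t), ← hW]
    constructor
    · intro h
      rw [h, W.symm_apply_apply]
    · intro h
      rw [← h, W.apply_symm_apply, h]
  obtain ⟨Ψ, hΨ, hadj⟩ := (hT R).adj k Φ hΦ
  rw [fix]
  refine prod_fix M Q.vac Z hZZ ?_ hvac E.cyc' (op Φ c f) (op Ψ (fun μ => conj (c μ)) (GF.bar f))
    (fun v' w' => hadj c f v' w' hf.1) (w.aff k Φ c f hΦ hf) ?_ v ((fix v).1 (hv t))
  · intro Y hY
    refine ⟨E.sg (-t) (Wc * Y * Ws), E.sg_mem_commutant (hcom Y hY) (-t), fun z => ?_⟩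
    rw [eZ, E.sg_apply, neg_neg, E.U_apply_neg]
    show W.symm (W (Y (W.symm (E.U t z)))) = _
    rw [W.symm_apply_apply, eZ]
  · rw [← fix]
    exact hS R a b M E w k Ψ _ _ t hΨ ((hT R).ib _ f hf)

end Vale.Agent.P352.BW.T

end
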