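import Vale.Agent.P352.BW.T.Spec
import Vale.Agent.P352.BW.H23.S

/-!
# P352 BWT, block S: the modular unitaries are the boosts on one-field vectors (helper23)
-/

set_option linter.all false

noncomputable section

open MeasureTheory Filter Topology
open scoped ComplexConjugate InnerProductSpace BoundedContinuousFunction

namespace Vale.Agent.P352.BW.T

open Vale.Agent.P132 (ModData expB jconj)
open UniformSpace (Completion)
open GF H246 H496 H755 H15

variable {D : Type*} [NormedAddCommGroup D] [InnerProductSpace ℂ D] {Q : Theory D}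
  {A : (V → V) → D → D}

/-! ### the boosts -/

theorem s_bst_swap (a b : V) (α β : ℝ) : bst b a α β = bst a b β α := by
  funext m
  simp only [bst]
  rw [add_right_comm]

theorem s_bq_swap (a b : V) (t : ℝ) : bq b a t = bq a b (-t) := by
  rw [bq, s_bst_swap, bq, mul_neg, neg_neg]

theorem s_rq_swap (a b : V) : rq b a = rq a b := s_bst_swap a b _ _

theorem s_lor {a b : V} (ha : IsNull a) (hb : IsNull b) (hab : GF.mdot a b = 1) (t : ℝ) :
    IsLor (bq a b t) := by
  refine isLor_bst ha hb hab ?_ ?_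
  · rw [add_sub_cancel]; exact Real.exp_pos _
  · rw [add_sub_cancel, add_sub_cancel, ← Real.exp_add, neg_add_cancel, Real.exp_zero]

theorem s_bq_mul {a b : V} (ha : IsNull a) (hb : IsNull b) (hab : GF.mdot a b = 1) (s t : ℝ) :
    (fun m => sim 1 (bq a b s) 0 (bq a b t m)) = bq a b (s + t) := by
  have hba : GF.mdot b a = 1 := by rw [md_comm]; exact hab
  have e1 : Real.exp (-(2 * Real.pi * (s + t))) =
      Real.exp (-(2 * Real.pi * s)) * Real.exp (-(2 * Real.pi * t)) := by
    rw [← Real.exp_add]; congr 1; ring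
  have e2 : Real.exp (2 * Real.pi * (s + t)) =
      Real.exp (2 * Real.pi * s) * Real.exp (2 * Real.pi * t) := by
    rw [← Real.exp_add]; congr 1; ring
  funext m
  have h5 : GF.mdot a (bas m 1) = eta m * a m := md_bas a m
  have h6 : GF.mdot b (bas m 1) = eta m * b m := md_bas b m
  rw [bq, sim_bst]
  simp only [bq, bst, md_add, md_smul, h5, h6, ha.1, hb.1, hab, hba, e1, e2]
  module

theorem s_bq_zero (a b : V) : bq a b 0 = GF.one := by
  funext m
  simp only [bq, bst, GF.one, mul_zero, neg_zero, Real.exp_zero, sub_self, zero_mul, zero_smul,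
    add_zero]

/-- the boosts on the completion of `D` -/
def bV (Q : Theory D) (a b : V) (t : ℝ) (z : Completion D) : Completion D :=
  Ue Q 1 (bq a b t) 0 z

section

variable (hU : UStmt Q A) {a b : V} (ha : IsNull a) (hb : IsNull b) (hab : GF.mdot a b = 1)

include hU ha hb hab

theorem bV_coe (t : ℝ) (v : D) : bV Q a b t (v : Completion D) = (Q.U 1 (bq a b t) 0 v : D) :=
  hU.coe 1 _ 0 v one_pos (s_lor ha hb hab t)

theorem bV_zero (z : Completion D) : bV Q a b 0 z = z := by
  obtain ⟨W, hW⟩ := hU.lin 1 (bq a b 0) 0 one_pos (s_lor ha hb hab 0)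
  have h1 : ∀ z, bV Q a b 0 z = W z := fun z => (hW z).symm
  refine Completion.induction_on z ?_ fun v => ?_
  · exact isClosed_eq ((continuous_congr h1).2 W.continuous) continuous_id
  · rw [bV_coe hU ha hb hab, s_bq_zero]
    exact congrArg _ (Uone v)

theorem bV_add (s t : ℝ) (z : Completion D) : bV Q a b s (bV Q a b t z) = bV Q a b (s + t) z := by
  have h := hU.mul 1 (bq a b s) 0 1 (bq a b t) 0 z one_pos one_pos (s_lor ha hb hab s)
    (s_lor ha hb hab t)
  rw [s_bq_mul ha hb hab, one_mul] at h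
  have h0 : sim 1 (bq a b s) 0 0 = 0 := by
    funext n; simp [sim]
  rw [h0] at h
  exact h

theorem bV_right (t : ℝ) (z : Completion D) : bV Q a b t (bV Q a b (-t) z) = z := by
  rw [bV_add hU ha hb hab, add_neg_cancel, bV_zero hU ha hb hab]

theorem bV_left (t : ℝ) (z : Completion D) : bV Q a b (-t) (bV Q a b t z) = z := by
  rw [bV_add hU ha hb hab, neg_add_cancel, bV_zero hU ha hb hab]

end

/-- the boosts commute with the modular objects -/
theorem bV_nat (hU : UStmt Q A) (hN : NStmt (Completion D)) {a b : V}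
    {M : VonNeumannAlgebra (Completion D)} (hM : Wal Q a b M) (E : ModData M (om Q)) (t : ℝ) :
    (∀ F z, bV Q a b t (E.Th F z) = E.Th F (bV Q a b t z)) ∧
      ∀ z, bV Q a b t (E.J z) = E.J (bV Q a b t z) := by
  obtain ⟨W, hW⟩ := hU.lin 1 (bq a b t) 0 one_pos (s_lor hM.na hM.nb hM.nab t)
  have hW' : ∀ z, W z = bV Q a b t z := hW
  have h := hN M (om Q) E W (by
    rw [hW]
    exact hU.vac 1 _ 0 one_pos (s_lor hM.na hM.nb hM.nab t)) ?_ ?_
  · simp only [hW'] at h
    exact h
  · intro X hX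
    obtain ⟨Y, hY, h1⟩ := hM.cov t X hX
    exact ⟨Y, hY, fun z => by rw [hW, hW]; exact h1 z⟩
  · intro Y hY
    obtain ⟨X, hX, h1⟩ := hM.cov (-t) Y hY
    refine ⟨X, hX, fun z => ?_⟩
    rw [hW', hW']
    have h2 : X z = bV Q a b (-t) (Y (bV Q a b t z)) := by
      have h3 := h1 (bV Q a b t z)
      change X (bV Q a b (-t) (bV Q a b t z)) = bV Q a b (-t) (Y (bV Q a b t z)) at h3
      rwa [bV_left hU hM.na hM.nb hM.nab] at h3
    rw [h2, bV_right hU hM.na hM.nb hM.nab]

theorem afs_of {M : VonNeumannAlgebra (Completion D)} {X X' : D → D}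
    (hadj : ∀ v w, inner ℂ (X v) w = inner ℂ v (X' w)) (h : Aff M X) : Afs M X X' := by
  obtain ⟨X'', h1, h2⟩ := h
  have e : X' = X'' := by
    funext w
    refine ext_inner_left ℂ fun v => ?_
    rw [← hadj, h1]
  exact ⟨hadj, by rw [e]; exact h2⟩

theorem ct_of {V : ℝ → Completion D → Completion D} {x x' : Completion D}
    {G : ℂ → Completion D} (h1 : DifferentiableOn ℂ G SmI) (h2 : ContinuousOn G Sm)
    (h3 : ∃ C, ∀ z ∈ Sm, ‖G z‖ ≤ C) (h4 : ∀ t : ℝ, G t = V t x ∧ G (t - Complex.I / 2) = V t x') :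
    H23.Ct V x x' := by
  obtain ⟨C, hC⟩ := h3
  refine ⟨G, C, fun y => ?_, fun y => ?_, fun z hz1 hz2 => hC z ⟨hz1, hz2⟩, h4⟩
  · exact (innerSL ℂ y).differentiable.comp_differentiableOn h1
  · exact (innerSL ℂ y).continuous.comp_continuousOn h2

/-- **Block S.** -/
theorem s (hU : UStmt Q A) (h1 : T1Stmt Q A) (hO : OStmt Q A) (hM : MStmt D)
    (hN : NStmt (Completion D)) (hA : AStmt) : SStmt Q A := by
  intro R a b M E hw k Φ c f t hΦ hf
  have ha := hw.na
  have hb := hw.nb
  have hab := hw.nab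
  have hba : GF.mdot b a = 1 := by rw [md_comm]; exact hab
  have T := h1 R
  obtain ⟨Ψ, hΨ, hadj⟩ := T.adj k Φ hΦ
  set c1 := tp (rq a b) c with hc1
  set f1 := cp (rq a b) f with hf1
  have if1 : In (Wdg b a 0) f1 := T.wr a b f ha hb hab hf
  set c' : (Fin k → Ix) → ℂ := fun μ => conj (c1 μ) with hc'
  set f' := GF.bar f1 with hf'
  have if' : In (Wdg b a 0) f' := T.ib _ _ if1
  have ifb : In (Wdg a b 0) (GF.bar f) := T.ib _ _ hf
  -- the reflection of `c'`, `f'`
  have e1 : tp (rq b a) c' = fun μ => conj (c μ) := by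
    rw [s_rq_swap, hc', hc1, (T.cj k c (rq a b) f).1]
    exact (T.rr k (fun μ => conj (c μ)) a b f ha hb hab).1
  have e2 : cp (rq b a) f' = GF.bar f := by
    rw [s_rq_swap, hf', hf1, (T.cj k c (rq a b) f).2]
    exact (T.rr k c a b (GF.bar f) ha hb hab).2
  -- continuation
  obtain ⟨G, g1, g2, g3, g4⟩ := hO R k Φ c f a b hΦ ha hb hab hf
  obtain ⟨G', g1', g2', g3', g4'⟩ := hO R k Ψ c' f' b a hΨ hb ha hba if'
  have k1 : H23.Ct (bV Q a b) ((op Φ c f Q.vac : D) : Completion D)
      ((op Φ c1 f1 Q.vac : D) : Completion D) := ct_of g1 g2 g3 fun t => by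
    rw [bV_coe hU ha hb hab, bV_coe hU ha hb hab]
    exact g4 t
  have k2 : H23.Ct (fun t => bV Q a b (-t)) ((op Ψ c' f' Q.vac : D) : Completion D)
      ((op Ψ (fun μ => conj (c μ)) (GF.bar f) Q.vac : D) : Completion D) :=
    ct_of g1' g2' g3' fun t => by
      have h5 := g4' t
      rw [e1, e2, s_bq_swap] at h5
      simp only [bV_coe hU ha hb hab]
      exact h5
  -- modular theory
  have m1 := (hM M Q.vac E (op Ψ (fun μ => conj (c μ)) (GF.bar f)) (op Φ c f)).1
    (afs_of (fun v w => by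
      rw [← inner_conj_symm, ← hadj c f w v hf.1, inner_conj_symm]) (hw.aff k Ψ _ _ hΨ ifb))
  have m2 := (hM M Q.vac E (op Φ c1 f1) (op Ψ c' f')).2
    (afs_of (fun v w => hadj c1 f1 v w if1.1) (hw.aff' k Φ _ _ hΦ if1))
  have key := H23.sblock E hA (bV Q a b) (bV_zero hU ha hb hab)
    (fun F t z => (bV_nat hU hN hw E t).1 F z) (fun t z => (bV_nat hU hN hw E t).2 z)
    _ _ _ _ k1 k2 (fun F G hFG => m2 G F fun h => by
      rw [hFG h, ← mul_assoc, ← Complex.ofReal_mul, ← Real.exp_add, add_neg_cancel, Real.exp_zero,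
        Complex.ofReal_one, one_mul]) (fun F G hFG => m1 F G hFG) t
  have h7 := congrArg (bV Q a b t) key
  rw [ModData.U, (bV_nat hU hN hw E t).1, bV_right hU ha hb hab, bV_coe hU ha hb hab] at h7
  exact h7

end Vale.Agent.P352.BW.T

end
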