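import Vale.Agent.P352.BW.T.Spec

/-!
# P352 BWT, block W: the wedge algebras of a local net
-/

set_option linter.all false

noncomputable section

open MeasureTheory Filter Topology
open scoped ComplexConjugate InnerProductSpace BoundedContinuousFunction

namespace Vale.Agent.P352.BW.T

open Vale.Agent.P132 (ModData)
open UniformSpace (Completion)
open GF H246 H496 H755 H15

namespace H732W

variable {D : Type*} [NormedAddCommGroup D] [InnerProductSpace ℂ D]

/-- sums of affiliated operators -/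
lemma aff_sum {ι : Type*} [Fintype ι] {M : VonNeumannAlgebra (Completion D)} {X : ι → D → D}
    (h : ∀ i, Aff M (X i)) (c : ι → ℂ) : Aff M (fun v => ∑ i, c i • X i v) := by
  choose X' h1 h2 using h
  refine ⟨fun w => ∑ i, conj (c i) • X' i w, fun v w => ?_, fun Y hY v w => ?_⟩
  · rw [sum_inner, inner_sum]
    refine Finset.sum_congr rfl fun i _ => ?_
    rw [inner_smul_left, inner_smul_right, h1]
  · have e (f : ι → D) : ((∑ i, f i : D) : Completion D) = ∑ i, ((f i : D) : Completion D) :=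
      map_sum (Completion.toComplL (𝕜 := ℂ) (E := D)) f Finset.univ
    rw [e, e]
    simp only [Completion.coe_smul]
    rw [sum_inner, map_sum, inner_sum]
    refine Finset.sum_congr rfl fun i _ => ?_
    rw [inner_smul_left, map_smul, inner_smul_right, h2 i Y hY, Complex.conj_conj]

/-- affiliation to a larger algebra -/
lemma aff_mono {M N : VonNeumannAlgebra (Completion D)} {X : D → D}
    (hMN : ∀ Y ∈ N.commutant, Y ∈ M.commutant) (h : Aff M X) : Aff N X := by
  obtain ⟨X', h1, h2⟩ := h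
  exact ⟨X', h1, fun Y hY v w => h2 Y (hMN Y hY) v w⟩

lemma sim_bq (a b : V) (t : ℝ) (x : V) : sim 1 (bq a b t) 0 x =
    x + ((Real.exp (-(2 * Real.pi * t)) - 1) * GF.mdot b x) • a +
      ((Real.exp (2 * Real.pi * t) - 1) * GF.mdot a x) • b := sim_bst a b _ _ x

lemma isLor_bq {a b : V} (ha : IsNull a) (hb : IsNull b) (hab : GF.mdot a b = 1) (t : ℝ) :
    IsLor (bq a b t) := by
  refine isLor_bst ha hb hab ?_ ?_
  · rw [add_sub_cancel]; exact Real.exp_pos _
  · rw [add_sub_cancel, add_sub_cancel, ← Real.exp_add, neg_add_cancel, Real.exp_zero]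

lemma bq_wdg {a b : V} (ha : IsNull a) (hb : IsNull b) (hab : GF.mdot a b = 1) (t : ℝ) :
    sim 1 (bq a b t) 0 '' Wdg a b 0 ⊆ Wdg a b 0 := by
  have hba : GF.mdot b a = 1 := by rw [md_comm]; exact hab
  rintro _ ⟨z, hz, rfl⟩
  simp only [Wdg, Set.mem_setOf_eq, sub_zero] at hz ⊢
  obtain ⟨h1, h2⟩ := hz
  have e1 : GF.mdot a (sim 1 (bq a b t) 0 z) = Real.exp (2 * Real.pi * t) * GF.mdot a z := by
    rw [sim_bq, md_add, md_add, md_smul, md_smul, ha.1, hab]; ring
  have e2 : GF.mdot b (sim 1 (bq a b t) 0 z) = Real.exp (-(2 * Real.pi * t)) * GF.mdot b z := by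
    rw [sim_bq, md_add, md_add, md_smul, md_smul, hb.1, hba]; ring
  rw [e1, e2]
  exact ⟨mul_neg_of_pos_of_neg (Real.exp_pos _) h1, mul_pos (Real.exp_pos _) h2⟩

end H732W

open H732W in
/-- block W -/
theorem w {D : Type*} [NormedAddCommGroup D] [InnerProductSpace ℂ D] {Q : Theory D}
    {A : (V → V) → D → D} {𝒜 : Set V → VonNeumannAlgebra (Completion D)} : WStmt Q A 𝒜 := by
  intro N a b ha hb hab
  refine ⟨ha, hb, hab, ?_, ?_, ?_⟩
  · intro k Φ c f hΦ hf
    exact aff_sum (fun μ => N.fld _ _ f (hΦ.fld μ) hf) c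
  · intro k Φ c f hΦ hf
    refine aff_mono (M := 𝒜 (Wdg b a 0)) ?_ (aff_sum (fun μ => N.fld _ _ f (hΦ.fld μ) hf) c)
    intro Y hY
    rw [VonNeumannAlgebra.commutant_commutant] at hY
    rw [VonNeumannAlgebra.mem_commutant_iff]
    intro X hX
    exact (VonNeumannAlgebra.mem_commutant_iff.1 (N.loc a b ha hb hab X hX) Y hY).symm
  · intro t X hX
    obtain ⟨Y, hY, h⟩ := N.cov 1 (bq a b t) 0 _ X hX one_pos (isLor_bq ha hb hab t)
    exact ⟨Y, N.mono _ _ (bq_wdg ha hb hab t) Y hY, h⟩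

end Vale.Agent.P352.BW.T

end
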