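import Vale.Agent.P352.BW.T.Bwf
import Vale.Agent.P352.BW.T.S
import Vale.Agent.P352.BW.T.T1
import Vale.Agent.P352.BW.T.R
import Vale.Agent.P352.BW.T.W
import Vale.Agent.P352.BW.T.M
import Vale.Agent.P352.BW.T.NAd
import Vale.Agent.P352.BW.A

/-!
# P352 BWT: assembly
-/

set_option linter.all false

noncomputable section

open MeasureTheory Filter Topology
open scoped ComplexConjugate InnerProductSpace BoundedContinuousFunction

namespace Vale.Agent.P352.BW.T

open Vale.Agent.P132 (ModData expB jconj)
open UniformSpace (Completion)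
open GF H246 H496 H755 H15

variable {D : Type*} [NormedAddCommGroup D] [InnerProductSpace ℂ D]
variable {Q : Theory D} {A : (V → V) → D → D}
  {𝒜 : Set V → VonNeumannAlgebra (Completion D)}

/-- block M -/
theorem m : MStmt D := by
  intro M ξ E X X'
  refine ⟨fun h F G hFG => ?_, fun h F G hFG => ?_⟩
  · exact mAff E h.1 ⟨X', h⟩ F G hFG
  · have := mAff' E h.1 ⟨X', h⟩ G F (fun t => by
      rw [hFG, ← mul_assoc, ← Complex.ofReal_mul, ← Real.exp_add]; simp)
    exact this

/-- a local net has the Bisognano-Wichmann property, if the tensor fields generate -/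
theorem lnet_of (hO : OStmt Q A) (hG : H846.TGen Q) (N : LNet0 Q A 𝒜) : LNet Q A 𝒜 := by
  have h1 : T1Stmt Q A := t1 Q A
  have hN : NStmt (Completion D) := n
  have hS : SStmt Q A := fun R => s (ublock R) h1 hO m hN ablock R
  exact bwf (p h1 hS) (r h1) w hG N

end Vale.Agent.P352.BW.T

end
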