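import Vale.Agent.P352.BW.T.P

/-!
# P352 BWT: the Bisognano-Wichmann property of a local net
-/

set_option linter.all false

noncomputable section

open MeasureTheory Filter Topology
open scoped ComplexConjugate InnerProductSpace BoundedContinuousFunction

namespace Vale.Agent.P352.BW.T

open Vale.Agent.P132 (ModData expB jconj)
open UniformSpace (Completion)
open GF H246 H496 H755 H15

variable {D : Type*} [NormedAddCommGroup D] [InnerProductSpace ℂ D]
variable {Q : Theory D} {A : (V → V) → D → D}
  {𝒜 : Set V → VonNeumannAlgebra (Completion D)}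

/-- the modular unitaries of a wedge algebra are the boosts -/
theorem bw_wal (hP : PStmt Q A) (hR : RStmt Q A) (R : Rep Q A) (hG : H846.TGen Q) {a b : V}
    {M : VonNeumannAlgebra (Completion D)} (E : ModData M (om Q)) (w : Wal Q a b M) (t : ℝ)
    (z : Completion D) : E.U t z = Ue Q 1 (bq a b t) 0 z := by
  have hU : UStmt Q A := ublock R
  have hco : ∀ t (v : D), Ue Q 1 (bq a b t) 0 (v : Completion D) =
      ((Q.U 1 (bq a b t) 0 v : D) : Completion D) := fun t v =>
    hU.coe 1 (bq a b t) 0 v one_pos (isLor_bq w.na w.nb w.nab t)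
  have hcn : ∀ t, Continuous (Ue Q 1 (bq a b t) 0) := fun t => by
    obtain ⟨W, hW⟩ := hU.lin 1 (bq a b t) 0 one_pos (isLor_bq w.na w.nb w.nab t)
    have : (fun z => W z) = Ue Q 1 (bq a b t) 0 := funext hW
    rw [← this]
    exact W.continuous
  have hadd : ∀ t (z w' : Completion D), Ue Q 1 (bq a b t) 0 (z + w') =
      Ue Q 1 (bq a b t) 0 z + Ue Q 1 (bq a b t) 0 w' := fun t z w' => by
    obtain ⟨W, hW⟩ := hU.lin 1 (bq a b t) 0 one_pos (isLor_bq w.na w.nb w.nab t)
    rw [← hW, ← hW, ← hW, map_add]
  have hsm : ∀ t (c : ℂ) (z : Completion D), Ue Q 1 (bq a b t) 0 (c • z) =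
      c • Ue Q 1 (bq a b t) 0 z := fun t c z => by
    obtain ⟨W, hW⟩ := hU.lin 1 (bq a b t) 0 one_pos (isLor_bq w.na w.nb w.nab t)
    rw [← hW, ← hW, map_smul]
  set S : Submodule ℂ D :=
    { carrier := {v | ∀ t, E.U t (v : Completion D) = Ue Q 1 (bq a b t) 0 (v : Completion D)}
      add_mem' := fun {x y} hx hy t => by
        rw [Completion.coe_add, map_add, hadd, hx t, hy t]
      zero_mem' := fun t => by
        have := hsm t 0 0
        rw [zero_smul, zero_smul] at this
        rw [Completion.coe_zero, map_zero, this]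
      smul_mem' := fun c x hx t => by
        rw [Completion.coe_smul, map_smul, hsm, hx t] } with hS
  have hd : Dense (S : Set D) := by
    refine hR R hG a b w.na w.nb w.nab S ?_ ?_
    · intro t
      rw [hco, Q.U_vac 1 _ 0 one_pos (isLor_bq w.na w.nb w.nab t)]
      exact E.U_xi t
    · intro k Φ c f v hΦ hf hv t
      rw [hco]
      refine hP R a b M E w k Φ c f v hΦ hf (fun t => ?_) t
      rw [← hco]
      exact hv t
  have hD : ∀ v : D, E.U t (v : Completion D) = Ue Q 1 (bq a b t) 0 (v : Completion D) := by
    intro v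
    have hc : IsClosed {v : D | E.U t (v : Completion D) =
        Ue Q 1 (bq a b t) 0 (v : Completion D)} :=
      isClosed_eq ((E.U t).continuous.comp (Completion.continuous_coe D))
        ((hcn t).comp (Completion.continuous_coe D))
    have : (S : Set D) ⊆ {v : D | E.U t (v : Completion D) =
        Ue Q 1 (bq a b t) 0 (v : Completion D)} := fun v hv => hv t
    exact closure_minimal this hc (hd v)
  exact Completion.induction_on z (isClosed_eq (E.U t).continuous (hcn t)) hD

/-- a matrix is determined by its action -/
lemma mat_ext {L L' : Ix → V} (h : ∀ x, sim 1 L 0 x = sim 1 L' 0 x) : L = L' := by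
  funext m n
  have := congrFun (h (bas m 1)) n
  simp only [sim, bas, Pi.zero_apply, zero_add, one_mul, ite_mul, zero_mul, Finset.sum_ite_eq',
    Finset.mem_univ, if_true] at this
  exact this

/-- block BWF -/
theorem bwf (hP : PStmt Q A) (hR : RStmt Q A) (hW : WStmt Q A 𝒜) : BWFStmt Q A 𝒜 := by
  intro hG N
  exact
    { N.toRep with
      fld := N.fld
      mono := N.mono
      cov := N.cov
      loc := N.loc
      bw := fun a b t L E z ha hb hab hL h => by
        have hL' : L = bq a b t := by
          apply mat_ext
          intro x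
          rw [h, bq, sim_bst]
        rw [hL']
        exact bw_wal hP hR N.toRep hG E (hW N a b ha hb hab) t z
      reg := N.reg }

end Vale.Agent.P352.BW.T

end
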