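import Vale.Agent.P132.Bd8.B2

/-!
# P352 BWT, block M (abstract part)

Vectors `x = X ξ`, `xs = X* ξ`, where `X` commutes weakly with the commutant of `M` (or with `M`):
`Δ^{1/2} x = J xs` (or `Δ^{-1/2} x = J xs`), in the form used in `ModData.kms`.
-/

noncomputable section

open Filter Topology
open scoped ComplexConjugate InnerProductSpace BoundedContinuousFunction

namespace Vale.Agent.P352.BW.T

open Vale.Agent.P132 Vale.Agent.P132.ModData

universe u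

variable {H : Type u} [NormedAddCommGroup H] [InnerProductSpace ℂ H] [CompleteSpace H]
variable {M : VonNeumannAlgebra H} {ξ : H} (E : ModData M ξ)

/-- from the commutant to the algebra, by `J` -/
theorem pair_J {x xs : H} (h : ∀ Y ∈ M.commutant, ⟪xs, Y ξ⟫_ℂ = ⟪star Y ξ, x⟫_ℂ) :
    ∀ a ∈ M, ⟪star a ξ, E.J x⟫_ℂ = ⟪E.J xs, a ξ⟫_ℂ := by
  intro a ha
  have h1 := h _ (E.J_mem a ha)
  rw [E.star_jconj, jconj_apply, jconj_apply, E.J_xi, E.inner_J_right, E.inner_J_left] at h1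
  rw [← inner_conj_symm, ← h1, inner_conj_symm]

/-- from smooth real functions of compact support to all functions -/
theorem ext_kms {p q : H}
    (h : ∀ χ : ℝ →ᵇ ℂ, ContDiff ℝ (⊤ : ℕ∞) χ → ∀ hχ : HasCompactSupport χ,
      (∀ t, conj (χ t) = χ t) → E.Th (gdE χ hχ) p = E.Th χ q)
    (F G : ℝ →ᵇ ℂ) (hFG : ∀ t : ℝ, F t = Real.exp (t / 2) * G t) : E.Th G q = E.Th F p := by
  rw [← sub_eq_zero]
  refine E.gd_zero fun K hK => ?_
  obtain ⟨χ, hχs, hχc, -, hχ1, hχr⟩ := gd_cutoff (tsupport K) hK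
  have e1 : E.Th K (E.Th G q) = E.Th (K * G) (E.Th χ q) := by
    rw [← E.gd_Th_mul, ← E.gd_Th_mul]
    congr 1
    refine E.gd_Th_congr fun t => ?_
    by_cases ht : t ∈ tsupport K
    · simp [BoundedContinuousFunction.mul_apply, hχ1 t ht]
    · simp [BoundedContinuousFunction.mul_apply, image_eq_zero_of_notMem_tsupport ht]
  have e2 : E.Th K (E.Th F p) = E.Th (K * G) (E.Th (gdE χ hχc) p) := by
    rw [← E.gd_Th_mul, ← E.gd_Th_mul]
    congr 1
    refine E.gd_Th_congr fun t => ?_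
    by_cases ht : t ∈ tsupport K
    · simp only [BoundedContinuousFunction.mul_apply, gdM_apply, hχ1 t ht, hFG t]
      ring
    · simp [BoundedContinuousFunction.mul_apply, image_eq_zero_of_notMem_tsupport ht]
  rw [map_sub, e1, e2, h χ hχs hχc hχr, sub_self]

/-- **Block M, algebra.** If `⟪xs, Y ξ⟫ = ⟪Y* ξ, x⟫` for all `Y` in the commutant of `M`, then
`Δ^{1/2} x = J xs`. -/
theorem aff_kms {x xs : H} (h : ∀ Y ∈ M.commutant, ⟪xs, Y ξ⟫_ℂ = ⟪star Y ξ, x⟫_ℂ)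
    (F G : ℝ →ᵇ ℂ) (hFG : ∀ t : ℝ, F t = Real.exp (t / 2) * G t) :
    E.Th G (E.J xs) = E.Th F x := by
  refine ext_kms E (fun χ hχs hχc hχr => ?_) F G hFG
  have h1 := E.gd_adj E.smth (pair_J E h) χ hχs hχc hχr
  rwa [E.J_J] at h1

theorem reflB_reflB (F : ℝ →ᵇ ℂ) : reflB (reflB F) = F := by
  ext t
  simp [reflB_apply]

/-- **Block M, commutant.** If `⟪xs, Y ξ⟫ = ⟪Y* ξ, x⟫` for all `Y` in `M`, then
`Δ^{-1/2} x = J xs`. -/
theorem aff_kms' {x xs : H} (h : ∀ Y ∈ M, ⟪xs, Y ξ⟫_ℂ = ⟪star Y ξ, x⟫_ℂ)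
    (F G : ℝ →ᵇ ℂ) (hFG : ∀ t : ℝ, F t = Real.exp (-(t / 2)) * G t) :
    E.Th G (E.J xs) = E.Th F x := by
  have h1 : E.Th (reflB G) xs = E.Th (reflB F) (E.J x) := by
    refine ext_kms E (fun χ hχs hχc hχr => ?_) (reflB F) (reflB G) fun t => ?_
    · exact E.gd_adj E.smth (fun a ha => (h a ha).symm) χ hχs hχc hχr
    · simp only [reflB_apply, hFG (-t), map_mul, Complex.conj_ofReal]
      congr 3
      ring
  have h2 := congrArg E.J h1
  rwa [E.J_Th, E.J_Th, reflB_reflB, reflB_reflB, E.J_J] at h2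

end Vale.Agent.P352.BW.T

end
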