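import Vale.Agent.P352.BW.T.O2

/-!
# P352, BWT block O: norm continuity in `L²`, weakly analytic functions (helper175)
-/

open MeasureTheory SchwartzMap Complex Filter Topology
open scoped SchwartzMap ComplexConjugate

namespace Vale.Agent.P352.BW.T

open GF H496

noncomputable section

theorem norm_sq_L2175 {μ : Measure Mink} (u : Lp ℂ 2 μ) : ‖u‖ ^ 2 = ∫ p, ‖u p‖ ^ 2 ∂μ := by
  have h1 : (inner ℂ u u : ℂ) = ((∫ p, ‖u p‖ ^ 2 ∂μ : ℝ) : ℂ) := by
    rw [L2.inner_def, ← integral_complex_ofReal]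
    congr 1
    ext p
    rw [inner_self_eq_norm_sq_to_K]
    push_cast
    rfl
  rw [inner_self_eq_norm_sq_to_K] at h1
  have h2 : ((‖u‖ ^ 2 : ℝ) : ℂ) = ((∫ p, ‖u p‖ ^ 2 ∂μ : ℝ) : ℂ) := by
    rw [← h1]; push_cast; rfl
  exact Complex.ofReal_injective h2

theorem memLp_cft_cb175 {a b : V} (ha : IsNull a) (hb : IsNull b) (hab : GF.mdot a b = 1)
    {μ : Measure Mink} (temp : μ.HasTemperateGrowth) (cone : ∀ᵐ p ∂μ, p ∈ fwdCone)
    (f : 𝓢(Mink, ℂ)) (hf : P352.IsTest (WM a b) f) {z : ℂ} (hz : z ∈ St) :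
    MemLp (fun p => cft f (cb a b z p)) 2 μ := by
  obtain ⟨N, hN⟩ := exists_wt_memLp temp
  obtain ⟨C, r, hC, hr, h⟩ := decay_cb ha hb hab f hf N
  refine MemLp.of_le_mul (c := C * Real.exp (r * |z.re|)) hN
    (continuous_cft_cb_right a b f hf.1 z).aestronglyMeasurable ?_
  filter_upwards [cone] with p hp
  rw [Real.norm_of_nonneg (wt_nonneg N p)]
  exact h p hp z hz

/-- growth of the norm in `L²` -/
theorem bd_cft_cb {a b : V} (ha : IsNull a) (hb : IsNull b) (hab : GF.mdot a b = 1)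
    {μ : Measure Mink} (temp : μ.HasTemperateGrowth) (cone : ∀ᵐ p ∂μ, p ∈ fwdCone)
    (f : 𝓢(Mink, ℂ)) (hf : P352.IsTest (WM a b) f) :
    ∃ C r : ℝ, 0 ≤ C ∧ 0 ≤ r ∧ ∀ z ∈ St, ∀ u : Lp ℂ 2 μ,
      (u =ᵐ[μ] fun p => cft f (cb a b z p)) → ‖u‖ ≤ C * Real.exp (r * |z.re|) := by
  obtain ⟨N, hN⟩ := exists_wt_memLp temp
  obtain ⟨C, r, hC, hr, h⟩ := decay_cb ha hb hab f hf N
  refine ⟨C * (eLpNorm (wt N) 2 μ).toReal, r, by positivity, hr, fun z hz u hu => ?_⟩
  rw [Lp.norm_def]
  have h1 : eLpNorm u 2 μ ≤ ENNReal.ofReal (C * Real.exp (r * |z.re|)) * eLpNorm (wt N) 2 μ := by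
    apply eLpNorm_le_mul_eLpNorm_of_ae_le_mul
    filter_upwards [cone, hu] with p hp hup
    rw [hup, Real.norm_of_nonneg (wt_nonneg N p)]
    exact h p hp z hz
  have h2 := ENNReal.toReal_mono (ENNReal.mul_ne_top ENNReal.ofReal_ne_top hN.eLpNorm_ne_top) h1
  rw [ENNReal.toReal_mul, ENNReal.toReal_ofReal (by positivity)] at h2
  refine h2.trans (le_of_eq ?_)
  ring

/-- norm continuity in `L²` -/
theorem nc_cft_cb {a b : V} (ha : IsNull a) (hb : IsNull b) (hab : GF.mdot a b = 1)
    {μ : Measure Mink} (temp : μ.HasTemperateGrowth) (cone : ∀ᵐ p ∂μ, p ∈ fwdCone)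
    (f : 𝓢(Mink, ℂ)) (hf : P352.IsTest (WM a b) f) {g : ℂ → Lp ℂ 2 μ}
    (hg : ∀ z ∈ St, g z =ᵐ[μ] fun p => cft f (cb a b z p)) : ContinuousOn g St := by
  obtain ⟨N, hN⟩ := exists_wt_memLp temp
  obtain ⟨C, r, hC, hr, h⟩ := decay_cb ha hb hab f hf N
  intro z₀ hz₀
  set K : ℝ := C * Real.exp (r * (|z₀.re| + 1)) with hK
  have hK0 : 0 ≤ K := by positivity
  have hcw : ContinuousWithinAt
      (fun z => ∫ p, ‖cft f (cb a b z p) - cft f (cb a b z₀ p)‖ ^ 2 ∂μ) St z₀ := by
    apply continuousWithinAt_of_dominated (bound := fun p => (2 * K) ^ 2 * wt N p ^ 2)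
    · refine Eventually.of_forall fun z => ?_
      exact (((continuous_cft_cb_right a b f hf.1 z).sub
        (continuous_cft_cb_right a b f hf.1 z₀)).norm.pow 2).aestronglyMeasurable
    · have hmem : {z : ℂ | |z.re| < |z₀.re| + 1} ∈ 𝓝 z₀ := by
        apply IsOpen.mem_nhds
        · exact isOpen_lt (by fun_prop) continuous_const
        · simp only [Set.mem_ofPred_eq, lt_add_iff_pos_right, zero_lt_one]
      filter_upwards [mem_nhdsWithin_of_mem_nhds hmem, self_mem_nhdsWithin] with z hz1 hz2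
      filter_upwards [cone] with p hp
      have e1 : ‖cft f (cb a b z p)‖ ≤ K * wt N p := by
        refine (h p hp z hz2).trans ?_
        have := wt_nonneg N p
        have hz1' : |z.re| ≤ |z₀.re| + 1 := le_of_lt hz1
        rw [hK]
        gcongr
      have e2 : ‖cft f (cb a b z₀ p)‖ ≤ K * wt N p := by
        refine (h p hp z₀ hz₀).trans ?_
        have := wt_nonneg N p
        rw [hK]
        gcongr
        linarith
      have e3 : ‖cft f (cb a b z p) - cft f (cb a b z₀ p)‖ ≤ 2 * K * wt N p := by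
        refine (norm_sub_le _ _).trans ?_
        linarith
      rw [Real.norm_of_nonneg (by positivity), ← mul_pow]
      gcongr
    · exact hN.integrable_sq.const_mul _
    · refine Eventually.of_forall fun p => ?_
      apply Continuous.continuousWithinAt
      exact (((differentiable_cft_cb a b f hf.1 p).continuous).sub continuous_const).norm.pow 2
  have hval : ∀ z ∈ St, ∫ p, ‖cft f (cb a b z p) - cft f (cb a b z₀ p)‖ ^ 2 ∂μ =
      ‖g z - g z₀‖ ^ 2 := by
    intro z hz
    rw [norm_sq_L2175]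
    apply integral_congr_ae
    filter_upwards [hg z hz, hg z₀ hz₀, Lp.coeFn_sub (g z) (g z₀)] with p h1 h2 h3
    rw [h3, Pi.sub_apply, h1, h2]
  have h0 : Tendsto (fun z => ‖g z - g z₀‖ ^ 2) (𝓝[St] z₀) (𝓝 0) := by
    have h1 : Tendsto (fun z => ∫ p, ‖cft f (cb a b z p) - cft f (cb a b z₀ p)‖ ^ 2 ∂μ)
        (𝓝[St] z₀) (𝓝 0) := by
      have h2 := hcw.tendsto
      simpa using h2
    refine h1.congr' ?_
    filter_upwards [self_mem_nhdsWithin] with z hz
    exact hval z hz
  have h1 : Tendsto (fun z => ‖g z - g z₀‖) (𝓝[St] z₀) (𝓝 0) := by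
    have h2 := h0.sqrt
    rw [Real.sqrt_zero] at h2
    refine h2.congr fun z => ?_
    rw [Real.sqrt_sq (norm_nonneg _)]
  exact tendsto_iff_norm_sub_tendsto_zero.2 h1

/-- a weakly analytic, norm continuous function is norm analytic -/
theorem nrm_diff175 {H : Type*} [NormedAddCommGroup H] [InnerProductSpace ℂ H] [CompleteSpace H]
    {G : ℂ → H} {U : Set ℂ} (hU : IsOpen U) (hc : ContinuousOn G U)
    (hw : ∀ y, DifferentiableOn ℂ (fun z => inner ℂ y (G z)) U) : DifferentiableOn ℂ G U := by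
  intro z₀ hz₀
  obtain ⟨r, hr, hball⟩ := Metric.isOpen_iff.1 hU z₀ hz₀
  set R : ℝ := r / 2 with hR
  have hR0 : 0 < R := by rw [hR]; linarith
  have hsub : Metric.closedBall z₀ R ⊆ U := by
    refine (Metric.closedBall_subset_ball ?_).trans hball
    rw [hR]; linarith
  have hci : CircleIntegrable G z₀ R := by
    apply ContinuousOn.circleIntegrable hR0.le
    exact hc.mono (Metric.sphere_subset_closedBall.trans hsub)
  have hp := hasFPowerSeriesOn_cauchy_integral (R := ⟨R, hR0.le⟩) (c := z₀) (f := G) hci hR0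
  have hda := hp.analyticAt.differentiableAt
  have heq : ∀ w ∈ Metric.ball z₀ R, (2 * Real.pi * I : ℂ)⁻¹ •
      (∮ z in C(z₀, R), (z - w)⁻¹ • G z) = G w := by
    intro w hw'
    apply ext_inner_left ℂ
    intro y
    have h1 : DiffContOnCl ℂ (fun z => inner ℂ y (G z)) (Metric.ball z₀ R) := by
      apply DifferentiableOn.diffContOnCl
      rw [closure_ball _ hR0.ne']
      exact (hw y).mono hsub
    have h2 := h1.two_pi_i_inv_smul_circleIntegral_sub_inv_smul hw'
    have hci2 : CircleIntegrable (fun z => (z - w)⁻¹ • G z) z₀ R := by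
      apply ContinuousOn.circleIntegrable hR0.le
      apply ContinuousOn.smul
      · apply ContinuousOn.inv₀ (by fun_prop)
        intro z hz h0
        rw [sub_eq_zero] at h0
        subst h0
        rw [Metric.mem_sphere] at hz
        rw [Metric.mem_ball] at hw'
        linarith
      · exact hc.mono (Metric.sphere_subset_closedBall.trans hsub)
    have h3 : inner ℂ y (∮ z in C(z₀, R), (z - w)⁻¹ • G z) =
        ∮ z in C(z₀, R), (z - w)⁻¹ • inner ℂ y (G z) := by
      have h4 := (innerSL ℂ y).intervalIntegral_comp_comm hci2.out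
      simp only [circleIntegral]
      have e : ∀ v, innerSL ℂ y v = inner ℂ y v := fun v => rfl
      rw [← e, ← h4]
      congr 1
      ext θ
      rw [e, inner_smul_right, inner_smul_right]
      rfl
    rw [inner_smul_right, h3, ← smul_eq_mul]
    exact h2
  refine (hda.congr_of_eventuallyEq ?_).differentiableWithinAt
  filter_upwards [Metric.ball_mem_nhds z₀ hR0] with w hw'
  exact (heq w hw').symm

/-- norm analyticity in `L²` -/
theorem na_cft_cb {a b : V} (ha : IsNull a) (hb : IsNull b) (hab : GF.mdot a b = 1)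
    {μ : Measure Mink} (temp : μ.HasTemperateGrowth) (cone : ∀ᵐ p ∂μ, p ∈ fwdCone)
    (f : 𝓢(Mink, ℂ)) (hf : P352.IsTest (WM a b) f) {g : ℂ → Lp ℂ 2 μ}
    (hg : ∀ z ∈ St, g z =ᵐ[μ] fun p => cft f (cb a b z p)) : DifferentiableOn ℂ g StI := by
  have hsub : StI ⊆ St := fun z hz => ⟨hz.1.le, hz.2.le⟩
  refine nrm_diff175 ?_ ((nc_cft_cb ha hb hab temp cone f hf hg).mono hsub) fun y => ?_
  · exact IsOpen.inter (isOpen_lt continuous_const continuous_im)
      (isOpen_lt continuous_im continuous_const)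
  · have hy : MemLp (fun p => conj (y p)) 2 μ := (Lp.memLp y).star
    refine ((o2 ha hb hab temp cone f hf hy).2.1).congr fun z hz => ?_
    rw [L2.inner_def]
    apply integral_congr_ae
    filter_upwards [hg z (hsub hz)] with p hp
    rw [hp]
    simp only [RCLike.inner_apply]

end

end Vale.Agent.P352.BW.T
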