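import Vale.Agent.P352.Bdl.B1
import Vale.Agent.P352.H496.Defs

/-!
# P352, BWT block O2 (helper638): Fourier-Laplace transforms at the complex boosted momenta
-/

open MeasureTheory SchwartzMap Complex Filter Topology
open scoped SchwartzMap ComplexConjugate

namespace Vale.Agent.P352.BW.T

open GF H496

noncomputable section

/-- The boosted momentum `(Λ_z)⁻¹ p`. -/
def cb (a b : V) (z : ℂ) (p : Mink) : Fin 4 → ℂ := fun j =>
  (p j : ℂ) + (exp (2 * Real.pi * z) - 1) * (GF.mdot b p.ofLp : ℂ) * (a j : ℂ) +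
    (exp (-(2 * Real.pi * z)) - 1) * (GF.mdot a p.ofLp : ℂ) * (b j : ℂ)

/-- The closed strip. -/
def St : Set ℂ := {z | -(1 / 2) ≤ z.im ∧ z.im ≤ 0}

/-- The open strip. -/
def StI : Set ℂ := {z | -(1 / 2) < z.im ∧ z.im < 0}

theorem cdot_cb (a b : V) (z : ℂ) (p x : Mink) :
    cdot (cb a b z p) x = (P352.mdot p x : ℂ) +
      (exp (2 * Real.pi * z) - 1) * ((GF.mdot b p.ofLp * GF.mdot a x.ofLp : ℝ) : ℂ) +
      (exp (-(2 * Real.pi * z)) - 1) * ((GF.mdot a p.ofLp * GF.mdot b x.ofLp : ℝ) : ℂ) := by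
  simp only [cdot, cb, P352.mdot, gf_mdot]
  push_cast
  ring

theorem mdot_nonneg {a : V} (ha : IsNull a) {p : Mink} (hp : p ∈ fwdCone) :
    0 ≤ GF.mdot a p.ofLp := by
  have h1 := ha.1
  have h2 := hp.2
  have h3 : (0 : ℝ) < a 0 := ha.2
  have h4 := hp.1
  rw [gf_mdot] at h1 ⊢
  simp only [P352.mdot] at h2
  have e1 : (a 1 * p 1 + a 2 * p 2 + a 3 * p 3) ^ 2 ≤
      (a 1 ^ 2 + a 2 ^ 2 + a 3 ^ 2) * (p 1 ^ 2 + p 2 ^ 2 + p 3 ^ 2) := by
    nlinarith only [sq_nonneg (a 1 * p 2 - a 2 * p 1), sq_nonneg (a 1 * p 3 - a 3 * p 1),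
      sq_nonneg (a 2 * p 3 - a 3 * p 2)]
  have e2 : (a 1 ^ 2 + a 2 ^ 2 + a 3 ^ 2) * (p 1 ^ 2 + p 2 ^ 2 + p 3 ^ 2) ≤ (a 0 * p 0) ^ 2 := by
    have f1 : a 1 ^ 2 + a 2 ^ 2 + a 3 ^ 2 = a 0 ^ 2 := by linarith only [h1]
    have f2 : p 1 ^ 2 + p 2 ^ 2 + p 3 ^ 2 ≤ p 0 ^ 2 := by linarith only [h2]
    rw [f1, mul_pow]
    exact mul_le_mul_of_nonneg_left f2 (sq_nonneg _)
  have e3 := abs_le_of_sq_le_sq' (e1.trans e2) (mul_nonneg h3.le h4)
  linarith only [e3.2]

theorem im_exp (z : ℂ) : (exp (2 * Real.pi * z)).im =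
    Real.exp (2 * Real.pi * z.re) * Real.sin (2 * Real.pi * z.im) := by
  rw [exp_im]
  congr 2 <;> simp

theorem im_exp_neg (z : ℂ) : (exp (-(2 * Real.pi * z))).im =
    -(Real.exp (-(2 * Real.pi * z.re)) * Real.sin (2 * Real.pi * z.im)) := by
  have h := im_exp (-z)
  rw [mul_neg, neg_re, neg_im, mul_neg, mul_neg, Real.sin_neg, mul_neg] at h
  exact h

theorem norm_exp_le (z : ℂ) : ‖exp (2 * Real.pi * z)‖ ≤ Real.exp (2 * Real.pi * |z.re|) := by
  rw [norm_exp]
  apply Real.exp_le_exp.2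
  have h1 : (2 * (Real.pi : ℂ) * z).re = 2 * Real.pi * z.re := by simp
  rw [h1]
  exact mul_le_mul_of_nonneg_left (le_abs_self _) (by positivity)

theorem norm_exp_neg_le (z : ℂ) :
    ‖exp (-(2 * Real.pi * z))‖ ≤ Real.exp (2 * Real.pi * |z.re|) := by
  have h := norm_exp_le (-z)
  rw [mul_neg, neg_re, abs_neg] at h
  exact h

theorem sin_nonpos {z : ℂ} (hz : z ∈ St) : Real.sin (2 * Real.pi * z.im) ≤ 0 := by
  apply Real.sin_nonpos_of_nonpos_of_neg_pi_le
  · exact mul_nonpos_of_nonneg_of_nonpos (by positivity) hz.2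
  · have := hz.1
    nlinarith [Real.pi_pos]

/-- The wedge as a subset of `Mink`. -/
abbrev WM (a b : V) : Set Mink := {x | x.ofLp ∈ Wdg a b 0}

theorem goodK_cb {a b : V} (ha : IsNull a) (hb : IsNull b) {p : Mink} (hp : p ∈ fwdCone) {z : ℂ}
    (hz : z ∈ St) : goodK (WM a b) (cb a b z p) := by
  intro x hx
  have h1 := mdot_nonneg ha hp
  have h2 := mdot_nonneg hb hp
  have h3 : GF.mdot a x.ofLp < 0 := by
    have := hx.1
    rwa [sub_zero] at this
  have h4 : 0 < GF.mdot b x.ofLp := by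
    have := hx.2
    rwa [sub_zero] at this
  have hs := sin_nonpos hz
  rw [cdot_cb]
  simp only [add_im, sub_im, one_im, sub_zero, mul_im, ofReal_im, mul_zero, zero_add, ofReal_re,
    im_exp, im_exp_neg]
  have e1 : 0 ≤ Real.exp (2 * Real.pi * z.re) * Real.sin (2 * Real.pi * z.im) *
      (GF.mdot b p.ofLp * GF.mdot a x.ofLp) :=
    mul_nonneg_of_nonpos_of_nonpos (mul_nonpos_of_nonneg_of_nonpos (Real.exp_pos _).le hs)
      (mul_nonpos_of_nonneg_of_nonpos h2 h3.le)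
  have e2 : 0 ≤ -(Real.exp (-(2 * Real.pi * z.re)) * Real.sin (2 * Real.pi * z.im)) *
      (GF.mdot a p.ofLp * GF.mdot b x.ofLp) :=
    mul_nonneg (neg_nonneg.2 (mul_nonpos_of_nonneg_of_nonpos (Real.exp_pos _).le hs))
      (mul_nonneg h1 h4.le)
  linarith only [e1, e2]

/-- The momentum from the boosted momentum. -/
theorem norm_le_cb {a b : V} (ha : IsNull a) (hb : IsNull b) (hab : GF.mdot a b = 1) :
    ∃ K : ℝ, 0 ≤ K ∧ ∀ z p, ‖p‖ ≤ K * Real.exp (2 * Real.pi * |z.re|) * ∑ j, ‖cb a b z p j‖ := by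
  set A : ℝ := ∑ j, |a j| with hA
  set B : ℝ := ∑ j, |b j| with hB
  have hA0 : 0 ≤ A := Finset.sum_nonneg fun j _ => abs_nonneg _
  have hB0 : 0 ≤ B := Finset.sum_nonneg fun j _ => abs_nonneg _
  have hAj : ∀ j, |a j| ≤ A := fun j =>
    Finset.single_le_sum (f := fun j => |a j|) (fun j _ => abs_nonneg _) (Finset.mem_univ j)
  have hBj : ∀ j, |b j| ≤ B := fun j =>
    Finset.single_le_sum (f := fun j => |b j|) (fun j _ => abs_nonneg _) (Finset.mem_univ j)
  refine ⟨4 * (1 + 4 * (A * B)), by positivity, fun z p => ?_⟩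
  set q := cb a b z p with hq
  set S : ℝ := ∑ j, ‖q j‖ with hS
  have hS0 : 0 ≤ S := Finset.sum_nonneg fun j _ => norm_nonneg _
  have hSj : ∀ j, ‖q j‖ ≤ S := fun j =>
    Finset.single_le_sum (f := fun j => ‖q j‖) (fun j _ => norm_nonneg _) (Finset.mem_univ j)
  set E := Real.exp (2 * Real.pi * |z.re|) with hE
  have hE1 : 1 ≤ E := Real.one_le_exp (by positivity)
  -- the products with `a` and `b`
  have haa : GF.mdot a a = 0 := ha.1
  have hbb : GF.mdot b b = 0 := hb.1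
  rw [gf_mdot] at haa hbb hab
  have haaC : (a 0 : ℂ) * a 0 - a 1 * a 1 - a 2 * a 2 - a 3 * a 3 = 0 := by exact_mod_cast haa
  have hbbC : (b 0 : ℂ) * b 0 - b 1 * b 1 - b 2 * b 2 - b 3 * b 3 = 0 := by exact_mod_cast hbb
  have habC : (a 0 : ℂ) * b 0 - a 1 * b 1 - a 2 * b 2 - a 3 * b 3 = 1 := by exact_mod_cast hab
  set X : ℂ := (a 0 : ℂ) * q 0 - a 1 * q 1 - a 2 * q 2 - a 3 * q 3 with hX
  set Y : ℂ := (b 0 : ℂ) * q 0 - b 1 * q 1 - b 2 * q 2 - b 3 * q 3 with hY
  have hXe : X = exp (-(2 * Real.pi * z)) * (GF.mdot a p.ofLp : ℂ) := by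
    rw [hX, hq]
    simp only [cb, gf_mdot]
    push_cast
    linear_combination (exp (2 * Real.pi * z) - 1) *
      ((b 0 : ℂ) * p 0 - b 1 * p 1 - b 2 * p 2 - b 3 * p 3) * haaC +
      (exp (-(2 * Real.pi * z)) - 1) *
      ((a 0 : ℂ) * p 0 - a 1 * p 1 - a 2 * p 2 - a 3 * p 3) * habC
  have hYe : Y = exp (2 * Real.pi * z) * (GF.mdot b p.ofLp : ℂ) := by
    rw [hY, hq]
    simp only [cb, gf_mdot]
    push_cast
    linear_combination (exp (2 * Real.pi * z) - 1) *
      ((b 0 : ℂ) * p 0 - b 1 * p 1 - b 2 * p 2 - b 3 * p 3) * habC +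
      (exp (-(2 * Real.pi * z)) - 1) *
      ((a 0 : ℂ) * p 0 - a 1 * p 1 - a 2 * p 2 - a 3 * p 3) * hbbC
  have hXn : ‖X‖ ≤ A * S := by
    have h1 : ‖X‖ ≤ |a 0| * ‖q 0‖ + |a 1| * ‖q 1‖ + |a 2| * ‖q 2‖ + |a 3| * ‖q 3‖ := by
      rw [hX]
      have t1 := norm_sub_le ((a 0 : ℂ) * q 0 - a 1 * q 1 - a 2 * q 2) (a 3 * q 3)
      have t2 := norm_sub_le ((a 0 : ℂ) * q 0 - a 1 * q 1) (a 2 * q 2)
      have t3 := norm_sub_le ((a 0 : ℂ) * q 0) (a 1 * q 1)
      simp only [norm_mul, norm_real, Real.norm_eq_abs] at t1 t2 t3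
      linarith only [t1, t2, t3]
    have h2 : A * S = (|a 0| + |a 1| + |a 2| + |a 3|) * S := by
      rw [hA, Fin.sum_univ_four]
    rw [h2]
    nlinarith only [h1, mul_le_mul_of_nonneg_left (hSj 0) (abs_nonneg (a 0)),
      mul_le_mul_of_nonneg_left (hSj 1) (abs_nonneg (a 1)),
      mul_le_mul_of_nonneg_left (hSj 2) (abs_nonneg (a 2)),
      mul_le_mul_of_nonneg_left (hSj 3) (abs_nonneg (a 3))]
  have hYn : ‖Y‖ ≤ B * S := by
    have h1 : ‖Y‖ ≤ |b 0| * ‖q 0‖ + |b 1| * ‖q 1‖ + |b 2| * ‖q 2‖ + |b 3| * ‖q 3‖ := by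
      rw [hY]
      have t1 := norm_sub_le ((b 0 : ℂ) * q 0 - b 1 * q 1 - b 2 * q 2) (b 3 * q 3)
      have t2 := norm_sub_le ((b 0 : ℂ) * q 0 - b 1 * q 1) (b 2 * q 2)
      have t3 := norm_sub_le ((b 0 : ℂ) * q 0) (b 1 * q 1)
      simp only [norm_mul, norm_real, Real.norm_eq_abs] at t1 t2 t3
      linarith only [t1, t2, t3]
    have h2 : B * S = (|b 0| + |b 1| + |b 2| + |b 3|) * S := by
      rw [hB, Fin.sum_univ_four]
    rw [h2]
    nlinarith only [h1, mul_le_mul_of_nonneg_left (hSj 0) (abs_nonneg (b 0)),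
      mul_le_mul_of_nonneg_left (hSj 1) (abs_nonneg (b 1)),
      mul_le_mul_of_nonneg_left (hSj 2) (abs_nonneg (b 2)),
      mul_le_mul_of_nonneg_left (hSj 3) (abs_nonneg (b 3))]
  have hee : exp (2 * Real.pi * z) * exp (-(2 * Real.pi * z)) = 1 := by
    rw [← Complex.exp_add, add_neg_cancel, Complex.exp_zero]
  have hj : ∀ j, |p j| ≤ (1 + 4 * (A * B)) * E * S := by
    intro j
    have h1 : (p j : ℂ) = q j - (1 - exp (-(2 * Real.pi * z))) * Y * a j -
        (1 - exp (2 * Real.pi * z)) * X * b j := by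
      rw [hXe, hYe, hq]
      simp only [cb]
      linear_combination (-(GF.mdot b p.ofLp : ℂ) * a j - (GF.mdot a p.ofLp : ℂ) * b j) * hee
    have h2 : |p j| = ‖(p j : ℂ)‖ := by rw [norm_real, Real.norm_eq_abs]
    have h3 : ‖1 - exp (-(2 * Real.pi * z))‖ ≤ 2 * E := by
      have := norm_sub_le (1 : ℂ) (exp (-(2 * Real.pi * z)))
      rw [norm_one] at this
      linarith only [this, norm_exp_neg_le z, hE1, hE]
    have h4 : ‖1 - exp (2 * Real.pi * z)‖ ≤ 2 * E := by
      have := norm_sub_le (1 : ℂ) (exp (2 * Real.pi * z))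
      rw [norm_one] at this
      linarith only [this, norm_exp_le z, hE1, hE]
    have h5 : ‖(1 - exp (-(2 * Real.pi * z))) * Y * a j‖ ≤ 2 * E * (B * S) * A := by
      rw [norm_mul, norm_mul, norm_real, Real.norm_eq_abs]
      have := hAj j
      gcongr
    have h6 : ‖(1 - exp (2 * Real.pi * z)) * X * b j‖ ≤ 2 * E * (A * S) * B := by
      rw [norm_mul, norm_mul, norm_real, Real.norm_eq_abs]
      have := hBj j
      gcongr
    rw [h2, h1]
    have t1 := norm_sub_le (q j - (1 - exp (-(2 * Real.pi * z))) * Y * a j)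
      ((1 - exp (2 * Real.pi * z)) * X * b j)
    have t2 := norm_sub_le (q j) ((1 - exp (-(2 * Real.pi * z))) * Y * a j)
    have t3 : ‖q j‖ ≤ E * S := (hSj j).trans (le_mul_of_one_le_left hS0 hE1)
    calc _ ≤ E * S + 2 * E * (B * S) * A + 2 * E * (A * S) * B := by linarith
      _ = (1 + 4 * (A * B)) * E * S := by ring
  have hp : ‖p‖ ≤ |p 0| + |p 1| + |p 2| + |p 3| := by
    apply le_of_sq_le_sq _ (by positivity)
    rw [norm_sq_mink]
    nlinarith only [abs_nonneg (p 0), abs_nonneg (p 1), abs_nonneg (p 2), abs_nonneg (p 3),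
      sq_abs (p 0), sq_abs (p 1), sq_abs (p 2), sq_abs (p 3),
      mul_nonneg (abs_nonneg (p 0)) (abs_nonneg (p 1)),
      mul_nonneg (abs_nonneg (p 0)) (abs_nonneg (p 2)),
      mul_nonneg (abs_nonneg (p 0)) (abs_nonneg (p 3)),
      mul_nonneg (abs_nonneg (p 1)) (abs_nonneg (p 2)),
      mul_nonneg (abs_nonneg (p 1)) (abs_nonneg (p 3)),
      mul_nonneg (abs_nonneg (p 2)) (abs_nonneg (p 3))]
  calc ‖p‖ ≤ |p 0| + |p 1| + |p 2| + |p 3| := hp
    _ ≤ 4 * ((1 + 4 * (A * B)) * E * S) := by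
        linarith only [hj 0, hj 1, hj 2, hj 3]
    _ = _ := by ring

/-- Rapid decay. -/
theorem decay_cb {a b : V} (ha : IsNull a) (hb : IsNull b) (hab : GF.mdot a b = 1)
    (f : 𝓢(Mink, ℂ)) (hf : P352.IsTest (WM a b) f) (N : ℕ) :
    ∃ C r : ℝ, 0 ≤ C ∧ 0 ≤ r ∧ ∀ p ∈ fwdCone, ∀ z ∈ St,
      ‖cft f (cb a b z p)‖ ≤ C * Real.exp (r * |z.re|) * wt N p := by
  obtain ⟨C0, hC0, h0⟩ := exists_decay_coord f hf 0
  obtain ⟨C1, hC1, h1⟩ := exists_decay_coord f hf N
  obtain ⟨K, hK, hKp⟩ := norm_le_cb ha hb hab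
  refine ⟨2 ^ N * (C0 + K ^ N * (4 ^ N * C1)), 2 * Real.pi * N, by positivity, by positivity,
    fun p hp z hz => ?_⟩
  have hg := goodK_cb ha hb hp hz
  set q := cb a b z p with hq
  set E := Real.exp (2 * Real.pi * |z.re|) with hE
  have hE1 : 1 ≤ E := Real.one_le_exp (by positivity)
  have hEN : Real.exp (2 * Real.pi * N * |z.re|) = E ^ N := by
    rw [hE, ← Real.exp_nat_mul]
    congr 1
    ring
  have hEN1 : 1 ≤ E ^ N := one_le_pow₀ hE1
  rw [hEN]
  set c := ‖cft f q‖ with hc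
  have hc0 : 0 ≤ c := norm_nonneg _
  have e0 : c ≤ C0 := by simpa using h0 q hg 0
  obtain ⟨j, -, hj⟩ := Finset.exists_max_image (Finset.univ : Finset (Fin 4)) (fun j => ‖q j‖)
    ⟨0, Finset.mem_univ 0⟩
  have hS : ∑ j, ‖q j‖ ≤ 4 * ‖q j‖ := by
    rw [Fin.sum_univ_four]
    linarith only [hj 0 (Finset.mem_univ _), hj 1 (Finset.mem_univ _), hj 2 (Finset.mem_univ _),
      hj 3 (Finset.mem_univ _)]
  have e1 := h1 q hg j
  have hpn : ‖p‖ ≤ K * E * (4 * ‖q j‖) :=
    (hKp z p).trans (mul_le_mul_of_nonneg_left hS (by positivity))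
  have key : (1 + ‖p‖) ^ N * c ≤ 2 ^ N * (C0 + K ^ N * (4 ^ N * C1)) * E ^ N := by
    by_cases hq1 : ‖p‖ ≤ 1
    · calc (1 + ‖p‖) ^ N * c ≤ 2 ^ N * C0 := by
            have : 1 + ‖p‖ ≤ 2 := by linarith only [hq1]
            gcongr
        _ ≤ 2 ^ N * (C0 + K ^ N * (4 ^ N * C1)) * 1 := by
            rw [mul_one]
            have : 0 ≤ K ^ N * (4 ^ N * C1) := by positivity
            gcongr
            linarith only [this]
        _ ≤ _ := by
            have : 0 ≤ K ^ N * (4 ^ N * C1) := by positivity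
            gcongr
    · push Not at hq1
      calc (1 + ‖p‖) ^ N * c ≤ (2 * (K * E * (4 * ‖q j‖))) ^ N * c := by
            gcongr
            linarith only [hpn, hq1]
        _ = 2 ^ N * (K ^ N * (4 ^ N * (‖q j‖ ^ N * c))) * E ^ N := by
            rw [mul_pow, mul_pow, mul_pow, mul_pow]; ring
        _ ≤ 2 ^ N * (K ^ N * (4 ^ N * C1)) * E ^ N := by gcongr
        _ ≤ _ := by
            gcongr
            linarith only [hC0]
  rw [wt, ← div_eq_mul_inv, le_div_iff₀ (by positivity), mul_comm]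
  exact key

theorem continuous_cb (a b : V) : Continuous fun q : ℂ × Mink => cb a b q.1 q.2 := by
  have h : ∀ j : Fin 4, Continuous fun q : ℂ × Mink => ((q.2 j : ℝ) : ℂ) := fun j =>
    continuous_ofReal.comp ((continuous_coord j).comp continuous_snd)
  have hm : ∀ c : V, Continuous fun q : ℂ × Mink => ((GF.mdot c q.2.ofLp : ℝ) : ℂ) := by
    intro c
    simp only [gf_mdot]
    push_cast
    exact ((((continuous_const.mul (h 0))).sub (continuous_const.mul (h 1))).sub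
      (continuous_const.mul (h 2))).sub (continuous_const.mul (h 3))
  refine continuous_pi fun j => ?_
  unfold cb
  have h1 := hm a
  have h2 := hm b
  have h3 := h j
  fun_prop

theorem continuous_cft_cb_right (a b : V) (f : 𝓢(Mink, ℂ)) (hf : HasCompactSupport f) (z : ℂ) :
    Continuous fun p : Mink => cft f (cb a b z p) := by
  have h1 : Continuous fun p : Mink => ((z, p) : ℂ × Mink) := by fun_prop
  exact (continuous_cft f hf).comp ((continuous_cb a b).comp h1)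

/-- Entire in `z`. -/
theorem differentiable_cft_cb (a b : V) (f : 𝓢(Mink, ℂ)) (hf : HasCompactSupport f) (p : Mink) :
    Differentiable ℂ fun z => cft f (cb a b z p) := by
  intro z₀
  have hcont : Continuous fun q : ℂ × Mink => exp (I * cdot (cb a b q.1 p) q.2) := by
    apply continuous_exp.comp
    apply continuous_const.mul
    have h1 : Continuous fun q : ℂ × Mink => cb a b q.1 p :=
      (continuous_cb a b).comp (continuous_fst.prodMk continuous_const)
    have h2 : Continuous fun q : ℂ × Mink => (cb a b q.1 p, q.2) := h1.prodMk continuous_snd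
    exact Continuous.comp (f := fun q : ℂ × Mink => (cb a b q.1 p, q.2))
      (g := fun r : (Fin 4 → ℂ) × Mink => cdot r.1 r.2) continuous_cdot_uncurry h2
  obtain ⟨C, hC⟩ := ((isCompact_closedBall z₀ 1).prod hf).bddAbove_image
    (f := fun q : ℂ × Mink => ‖exp (I * cdot (cb a b q.1 p) q.2)‖) hcont.norm.continuousOn
  have hC' : ∀ z ∈ Metric.closedBall z₀ 1, ∀ x ∈ tsupport f,
      ‖exp (I * cdot (cb a b z p) x)‖ ≤ C := by
    intro z hz x hx
    exact hC ⟨(z, x), ⟨hz, hx⟩, rfl⟩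
  refine differentiableAt_integral (U := Metric.ball z₀ 1) Metric.isOpen_ball
    (F := fun z x => exp (I * cdot (cb a b z p) x) * f x) (bound := fun x => C * ‖f x‖)
    ?_ ?_ ?_ ?_ (Metric.mem_ball_self one_pos)
  · intro z _
    exact (integrable_cexp_mul _ f hf).aestronglyMeasurable
  · refine Eventually.of_forall fun x => ?_
    have : Differentiable ℂ fun z : ℂ => exp (I * cdot (cb a b z p) x) * f x := by
      simp only [cdot_cb]
      fun_prop
    exact this.differentiableOn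
  · refine Eventually.of_forall fun x z hz => ?_
    rw [norm_mul]
    by_cases hx : x ∈ tsupport f
    · gcongr
      exact hC' z (Metric.ball_subset_closedBall hz) x hx
    · simp [image_eq_zero_of_notMem_tsupport hx]
  · exact f.integrable.norm.const_mul C

variable {μ : Measure Mink}

/-- **O2.** -/
theorem o2 {a b : V} (ha : IsNull a) (hb : IsNull b) (hab : GF.mdot a b = 1)
    (temp : μ.HasTemperateGrowth) (cone : ∀ᵐ p ∂μ, p ∈ fwdCone) (f : 𝓢(Mink, ℂ))
    (hf : P352.IsTest {x | x.ofLp ∈ Wdg a b 0} f) {φ : Mink → ℂ} (hφ : MemLp φ 2 μ) :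
    ContinuousOn (fun z => ∫ p, cft f (cb a b z p) * φ p ∂μ) St ∧
    DifferentiableOn ℂ (fun z => ∫ p, cft f (cb a b z p) * φ p ∂μ) StI ∧
    ∃ C r : ℝ, 0 ≤ C ∧ 0 ≤ r ∧ ∀ z ∈ St, ‖∫ p, cft f (cb a b z p) * φ p ∂μ‖ ≤
      C * Real.exp (r * |z.re|) := by
  obtain ⟨N, hN⟩ := exists_wt_memLp temp
  obtain ⟨C, r, hC, hr, h⟩ := decay_cb ha hb hab f hf N
  have hI : Integrable (fun p => wt N p * ‖φ p‖) μ := memLp_wt_mul hN hφ
  have hae : ∀ z, AEStronglyMeasurable (fun p => cft f (cb a b z p) * φ p) μ := fun z =>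
    (continuous_cft_cb_right a b f hf.1 z).aestronglyMeasurable.mul hφ.aestronglyMeasurable
  have hbd : ∀ᵐ p ∂μ, ∀ z ∈ St, ‖cft f (cb a b z p) * φ p‖ ≤
      C * Real.exp (r * |z.re|) * (wt N p * ‖φ p‖) := by
    filter_upwards [cone] with p hp z hz
    rw [norm_mul]
    calc _ ≤ (C * Real.exp (r * |z.re|) * wt N p) * ‖φ p‖ := by
          gcongr
          exact h p hp z hz
      _ = _ := by ring
  have hloc : ∀ T : ℝ, ∀ᵐ p ∂μ, ∀ z ∈ St, |z.re| ≤ T → ‖cft f (cb a b z p) * φ p‖ ≤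
      C * Real.exp (r * T) * (wt N p * ‖φ p‖) := by
    intro T
    filter_upwards [hbd] with p hp z hz hT
    refine (hp z hz).trans ?_
    have := wt_nonneg N p
    gcongr
  refine ⟨?_, ?_, ?_⟩
  · intro z₀ hz₀
    apply continuousWithinAt_of_dominated
      (bound := fun p => C * Real.exp (r * (|z₀.re| + 1)) * (wt N p * ‖φ p‖))
    · exact Eventually.of_forall fun z => hae z
    · have hmem : {z : ℂ | |z.re| < |z₀.re| + 1} ∈ 𝓝 z₀ := by
        apply IsOpen.mem_nhds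
        · exact isOpen_lt (by fun_prop) continuous_const
        · simp only [Set.mem_ofPred_eq, lt_add_iff_pos_right, zero_lt_one]
      filter_upwards [mem_nhdsWithin_of_mem_nhds hmem, self_mem_nhdsWithin] with z hz1 hz2
      filter_upwards [hloc (|z₀.re| + 1)] with p hp using hp z hz2 (le_of_lt hz1)
    · exact hI.const_mul _
    · refine Eventually.of_forall fun p => ?_
      apply Continuous.continuousWithinAt
      exact ((differentiable_cft_cb a b f hf.1 p).continuous).mul continuous_const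
  · intro z₀ hz₀
    apply DifferentiableAt.differentiableWithinAt
    set U : Set ℂ := {z : ℂ | |z.re| < |z₀.re| + 1} ∩ StI with hU
    have hUo : IsOpen U := by
      apply IsOpen.inter
      · exact isOpen_lt (by fun_prop) continuous_const
      · apply IsOpen.inter
        · exact isOpen_lt continuous_const continuous_im
        · exact isOpen_lt continuous_im continuous_const
    refine differentiableAt_integral hUo (F := fun z p => cft f (cb a b z p) * φ p)
      (bound := fun p => C * Real.exp (r * (|z₀.re| + 1)) * (wt N p * ‖φ p‖)) ?_ ?_ ?_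
      (hI.const_mul _) ⟨by simp only [Set.mem_ofPred_eq, lt_add_iff_pos_right, zero_lt_one], hz₀⟩
    · exact fun z _ => hae z
    · refine Eventually.of_forall fun p => ?_
      exact ((differentiable_cft_cb a b f hf.1 p).mul_const _).differentiableOn
    · filter_upwards [hloc (|z₀.re| + 1)] with p hp z hz
      exact hp z ⟨hz.2.1.le, hz.2.2.le⟩ (le_of_lt hz.1)
  · refine ⟨C * ∫ p, wt N p * ‖φ p‖ ∂μ, r, mul_nonneg hC (integral_nonneg fun p =>
      mul_nonneg (wt_nonneg N p) (norm_nonneg _)), hr, fun z hz => ?_⟩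
    have h1 : ‖∫ p, cft f (cb a b z p) * φ p ∂μ‖ ≤
        ∫ p, C * Real.exp (r * |z.re|) * (wt N p * ‖φ p‖) ∂μ := by
      refine norm_integral_le_of_norm_le (hI.const_mul _) ?_
      filter_upwards [hbd] with p hp using hp z hz
    rw [integral_const_mul] at h1
    refine h1.trans (le_of_eq ?_)
    ring

end

end Vale.Agent.P352.BW.T
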