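import Vale.Agent.P352.BW.T.O2
import Mathlib.Analysis.Complex.CauchyIntegral
import Mathlib.MeasureTheory.Function.L2Space

/-!
# P352, BWT block O2 (helper638): the boosted Fourier-Laplace transforms as vectors of `L²(μ)`
-/

open MeasureTheory SchwartzMap Complex Filter Topology
open scoped SchwartzMap ComplexConjugate ENNReal

namespace Vale.Agent.P352.BW.T

open GF H496

noncomputable section

/-- A norm continuous, weakly holomorphic function is holomorphic. -/
theorem holo_of_weak {E : Type*} [NormedAddCommGroup E] [InnerProductSpace ℂ E] [CompleteSpace E]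
    {U : Set ℂ} (hU : IsOpen U) {g : ℂ → E} (hc : ContinuousOn g U)
    (hw : ∀ y : E, DifferentiableOn ℂ (fun z => inner ℂ y (g z)) U) : DifferentiableOn ℂ g U := by
  intro c hcU
  obtain ⟨ε, hε, hball⟩ := Metric.isOpen_iff.1 hU c hcU
  have hε2 : 0 < ε / 2 := by positivity
  have hcl : Metric.closedBall c (ε / 2) ⊆ U := fun w hw' => hball (by
    rw [Metric.mem_closedBall] at hw'
    rw [Metric.mem_ball]
    linarith)
  let R : NNReal := ⟨ε / 2, hε2.le⟩
  have hR : (R : ℝ) = ε / 2 := rfl
  have hci : CircleIntegrable g c R := by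
    apply ContinuousOn.circleIntegrable R.2
    exact hc.mono (Metric.sphere_subset_closedBall.trans hcl)
  have hfp := hasFPowerSeriesOn_cauchy_integral hci (show 0 < R from hε2)
  have heq : ∀ w ∈ Metric.ball c (ε / 2),
      (2 * Real.pi * I : ℂ)⁻¹ • (∮ z in C(c, R), (z - w)⁻¹ • g z) = g w := by
    intro w hwb
    refine ext_inner_left ℂ fun y => ?_
    have hd : DiffContOnCl ℂ (fun z => inner ℂ y (g z)) (Metric.ball c R) := by
      apply DifferentiableOn.diffContOnCl
      rw [closure_ball c (by rw [hR]; exact hε2.ne')]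
      exact (hw y).mono hcl
    have h1 := hd.circleIntegral_sub_inv_smul (w := w) hwb
    have h0 : (2 * Real.pi * I : ℂ) ≠ 0 := by
      simp [Real.pi_ne_zero]
    rw [inner_smul_right, inv_mul_eq_iff_eq_mul₀ h0, ← smul_eq_mul, ← h1]
    have hwn : ∀ z ∈ Metric.sphere c (R : ℝ), z - w ≠ 0 := by
      intro z hz hzw
      rw [sub_eq_zero] at hzw
      rw [hzw, Metric.mem_sphere] at hz
      rw [Metric.mem_ball] at hwb
      rw [hR] at hz
      linarith
    have hint : CircleIntegrable (fun z => (z - w)⁻¹ • g z) c R := by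
      apply ContinuousOn.circleIntegrable R.2
      apply ContinuousOn.smul
      · exact ContinuousOn.inv₀ (by fun_prop) hwn
      · exact hc.mono (Metric.sphere_subset_closedBall.trans hcl)
    have h2 : inner ℂ y (∮ z in C(c, R), (z - w)⁻¹ • g z) =
        ∮ z in C(c, R), inner ℂ y ((z - w)⁻¹ • g z) := by
      unfold circleIntegral
      have h5 := (innerSL ℂ y).intervalIntegral_comp_comm hint.out
      rw [innerSL_apply_apply] at h5
      rw [← h5]
      apply intervalIntegral.integral_congr
      intro θ _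
      simp only [innerSL_apply_apply, inner_smul_right, smul_eq_mul]
    rw [h2]
    congr 1
    funext z
    rw [inner_smul_right, smul_eq_mul]
  have h3 := (hfp.differentiableOn).differentiableAt
    (IsOpen.mem_nhds Metric.isOpen_eball (Metric.mem_eball_self (by
      exact_mod_cast (show 0 < R from hε2))))
  have h4 : g =ᶠ[𝓝 c] fun w => (2 * Real.pi * I : ℂ)⁻¹ • (∮ z in C(c, R), (z - w)⁻¹ • g z) := by
    filter_upwards [Metric.ball_mem_nhds c hε2] with w hwb
    exact (heq w hwb).symm
  exact (h3.congr_of_eventuallyEq h4).differentiableWithinAt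

variable {μ : Measure Mink}

/-- **O2, vector form.** -/
theorem o2L {a b : V} (ha : IsNull a) (hb : IsNull b) (hab : GF.mdot a b = 1)
    (temp : μ.HasTemperateGrowth) (cone : ∀ᵐ p ∂μ, p ∈ fwdCone) (f : 𝓢(Mink, ℂ))
    (hf : P352.IsTest {x | x.ofLp ∈ Wdg a b 0} f) :
    ∃ g : ℂ → Lp ℂ 2 μ, (∀ z ∈ St, g z =ᵐ[μ] fun p => cft f (cb a b z p)) ∧
      ContinuousOn g St ∧ DifferentiableOn ℂ g StI ∧
      ∃ C r : ℝ, 0 ≤ C ∧ 0 ≤ r ∧ ∀ z ∈ St, ‖g z‖ ≤ C * Real.exp (r * |z.re|) := by
  classical
  obtain ⟨N, hN⟩ := exists_wt_memLp temp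
  obtain ⟨C, r, hC, hr, h⟩ := decay_cb ha hb hab f hf N
  have hae : ∀ z, AEStronglyMeasurable (fun p => cft f (cb a b z p)) μ := fun z =>
    (continuous_cft_cb_right a b f hf.1 z).aestronglyMeasurable
  have hbd : ∀ z ∈ St, ∀ᵐ p ∂μ, ‖cft f (cb a b z p)‖ ≤
      ‖C * Real.exp (r * |z.re|) * wt N p‖ := by
    intro z hz
    filter_upwards [cone] with p hp
    exact (h p hp z hz).trans (le_abs_self _)
  have hmem : ∀ z ∈ St, MemLp (fun p => cft f (cb a b z p)) 2 μ := fun z hz =>
    MemLp.mono (hN.const_mul (C * Real.exp (r * |z.re|))) (hae z) (hbd z hz)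
  let g : ℂ → Lp ℂ 2 μ := fun z => if hz : z ∈ St then (hmem z hz).toLp _ else 0
  have hg : ∀ z ∈ St, g z =ᵐ[μ] fun p => cft f (cb a b z p) := by
    intro z hz
    simp only [g, dif_pos hz]
    exact (hmem z hz).coeFn_toLp
  have hsub : StI ⊆ St := fun z hz => ⟨hz.1.le, hz.2.le⟩
  have hStI : IsOpen StI := by
    apply IsOpen.inter
    · exact isOpen_lt continuous_const continuous_im
    · exact isOpen_lt continuous_im continuous_const
  have hcont : ContinuousOn g St := by
    intro z₀ hz₀
    rw [ContinuousWithinAt, tendsto_iff_norm_sub_tendsto_zero]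
    have hsq : Tendsto (fun z => ‖g z - g z₀‖ ^ 2) (𝓝[St] z₀) (𝓝 0) := by
      have h1 : ∀ z ∈ St, ‖g z - g z₀‖ ^ 2 =
          ∫ p, ‖cft f (cb a b z p) - cft f (cb a b z₀ p)‖ ^ 2 ∂μ := by
        intro z hz
        have h2 : ((‖g z - g z₀‖ ^ 2 : ℝ) : ℂ) = inner ℂ (g z - g z₀) (g z - g z₀) := by
          rw [inner_self_eq_norm_sq_to_K]
          push_cast
          rfl
        have h3 : (inner ℂ (g z - g z₀) (g z - g z₀) : ℂ) =
            ((∫ p, ‖cft f (cb a b z p) - cft f (cb a b z₀ p)‖ ^ 2 ∂μ : ℝ) : ℂ) := by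
          rw [L2.inner_def, ← integral_complex_ofReal]
          apply integral_congr_ae
          filter_upwards [Lp.coeFn_sub (g z) (g z₀), hg z hz, hg z₀ hz₀] with p e1 e2 e3
          rw [e1, Pi.sub_apply, e2, e3, inner_self_eq_norm_sq_to_K]
          push_cast
          rfl
        rw [← h2] at h3
        exact_mod_cast h3
      have h4 : Tendsto (fun z => ∫ p, ‖cft f (cb a b z p) - cft f (cb a b z₀ p)‖ ^ 2 ∂μ)
          (𝓝[St] z₀) (𝓝 (∫ p, ‖cft f (cb a b z₀ p) - cft f (cb a b z₀ p)‖ ^ 2 ∂μ)) := by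
        refine tendsto_integral_filter_of_dominated_convergence
          (bound := fun p => (2 * (C * Real.exp (r * (|z₀.re| + 1)))) ^ 2 * wt N p ^ 2) ?_ ?_ ?_ ?_
        · exact Eventually.of_forall fun z => ((hae z).sub (hae z₀)).norm.pow 2
        · have hnb : {z : ℂ | |z.re| < |z₀.re| + 1} ∈ 𝓝 z₀ := by
            apply IsOpen.mem_nhds
            · exact isOpen_lt (by fun_prop) continuous_const
            · simp only [Set.mem_ofPred_eq, lt_add_iff_pos_right, zero_lt_one]
          filter_upwards [mem_nhdsWithin_of_mem_nhds hnb, self_mem_nhdsWithin] with z hz1 hz2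
          filter_upwards [cone] with p hp
          have t1 := h p hp z hz2
          have t2 := h p hp z₀ hz₀
          have hw := wt_nonneg N p
          have t3 : ‖cft f (cb a b z p)‖ ≤ C * Real.exp (r * (|z₀.re| + 1)) * wt N p := by
            refine t1.trans ?_
            have : |z.re| ≤ |z₀.re| + 1 := le_of_lt hz1
            gcongr
          have t4 : ‖cft f (cb a b z₀ p)‖ ≤ C * Real.exp (r * (|z₀.re| + 1)) * wt N p := by
            refine t2.trans ?_
            have : |z₀.re| ≤ |z₀.re| + 1 := by linarith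
            gcongr
          have t5 := norm_sub_le (cft f (cb a b z p)) (cft f (cb a b z₀ p))
          have t6 : ‖cft f (cb a b z p) - cft f (cb a b z₀ p)‖ ≤
              2 * (C * Real.exp (r * (|z₀.re| + 1))) * wt N p := by linarith
          rw [Real.norm_eq_abs, abs_of_nonneg (sq_nonneg _), ← mul_pow]
          exact pow_le_pow_left₀ (norm_nonneg _) t6 2
        · exact (hN.integrable_sq).const_mul _
        · refine Eventually.of_forall fun p => ?_
          have hcz : Continuous fun z => ‖cft f (cb a b z p) - cft f (cb a b z₀ p)‖ ^ 2 :=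
            (((differentiable_cft_cb a b f hf.1 p).continuous).sub continuous_const).norm.pow 2
          exact hcz.continuousAt.tendsto.mono_left nhdsWithin_le_nhds
      simp only [sub_self, norm_zero, ne_eq, OfNat.ofNat_ne_zero, not_false_eq_true, zero_pow,
        integral_zero] at h4
      refine h4.congr' ?_
      filter_upwards [self_mem_nhdsWithin] with z hz
      exact (h1 z hz).symm
    have h5 := hsq.sqrt
    rw [Real.sqrt_zero] at h5
    refine h5.congr fun z => ?_
    rw [Real.sqrt_sq (norm_nonneg _)]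
  refine ⟨g, hg, hcont, ?_, ?_⟩
  · apply holo_of_weak hStI (hcont.mono hsub)
    intro y
    have h1 := (o2 ha hb hab temp cone f hf (φ := fun p => conj (y p))
      (MemLp.star (Lp.memLp y))).2.1
    refine h1.congr fun z hz => ?_
    rw [L2.inner_def]
    apply integral_congr_ae
    filter_upwards [hg z (hsub hz)] with p e
    rw [e]
    simp only [RCLike.inner_apply]
  · refine ⟨C * (eLpNorm (wt N) 2 μ).toReal, r, mul_nonneg hC ENNReal.toReal_nonneg, hr,
      fun z hz => ?_⟩
    have h1 : ‖g z‖ = (eLpNorm (fun p => cft f (cb a b z p)) 2 μ).toReal := by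
      simp only [g, dif_pos hz]
      rw [Lp.norm_toLp]
    rw [h1]
    have h2 : eLpNorm (fun p => cft f (cb a b z p)) 2 μ ≤
        eLpNorm (fun p => C * Real.exp (r * |z.re|) * wt N p) 2 μ := eLpNorm_mono_ae (hbd z hz)
    have h3 : eLpNorm (fun p => C * Real.exp (r * |z.re|) * wt N p) 2 μ =
        ENNReal.ofReal (C * Real.exp (r * |z.re|)) * eLpNorm (wt N) 2 μ := by
      have h4 := eLpNorm_const_smul (C * Real.exp (r * |z.re|)) (wt N) 2 μ
      rw [Real.enorm_eq_ofReal (by positivity)] at h4
      exact h4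
    calc (eLpNorm (fun p => cft f (cb a b z p)) 2 μ).toReal
        ≤ (ENNReal.ofReal (C * Real.exp (r * |z.re|)) * eLpNorm (wt N) 2 μ).toReal := by
          rw [← h3]
          exact ENNReal.toReal_mono (hN.const_mul _).eLpNorm_ne_top h2
      _ = _ := by
          rw [ENNReal.toReal_mul, ENNReal.toReal_ofReal (by positivity)]
          ring

end

end Vale.Agent.P352.BW.T
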