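import Vale.Agent.P352.Bdl.B2
import Vale.Agent.P352.H496.Defs
import Vale.Agent.P352.H755.R7c

/-!
# P352 BW/T: the reflection `R x = x - 2 (b·x) a - 2 (a·x) b`
-/

set_option linter.all false

noncomputable section

open MeasureTheory SchwartzMap Filter Topology
open scoped SchwartzMap ComplexConjugate

namespace Vale.Agent.P352.BW.T

open GF (Ix V Fn IsLor o sim)
open H246 H496 H755

/-- the reflection `x ↦ x - 2 (b·x) a - 2 (a·x) b` -/
def rf (a b x : V) : V := x - (2 * GF.mdot b x) • a - (2 * GF.mdot a x) • b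

theorem rf_apply (a b x : V) (n : Ix) :
    rf a b x n = x n - 2 * GF.mdot b x * a n - 2 * GF.mdot a x * b n := rfl

theorem rf_add (a b x y : V) : rf a b (x + y) = rf a b x + rf a b y := by
  funext n
  simp only [rf_apply, Pi.add_apply, md_add]
  ring

theorem rf_smul (a b : V) (c : ℝ) (x : V) : rf a b (c • x) = c • rf a b x := by
  funext n
  simp only [rf_apply, Pi.smul_apply, smul_eq_mul, md_smul]
  ring

theorem rf_swap (a b x : V) : rf a b x = rf b a x := by
  funext n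
  simp only [rf_apply]
  ring

theorem mdot_a_rf {a b : V} (haa : GF.mdot a a = 0) (hab : GF.mdot a b = 1) (x : V) :
    GF.mdot a (rf a b x) = -GF.mdot a x := by
  unfold rf
  rw [md_sub, md_sub, md_smul, md_smul, haa, hab]
  ring

theorem mdot_b_rf {a b : V} (hbb : GF.mdot b b = 0) (hab : GF.mdot a b = 1) (x : V) :
    GF.mdot b (rf a b x) = -GF.mdot b x := by
  unfold rf
  rw [md_sub, md_sub, md_smul, md_smul, hbb, md_comm b a, hab]
  ring

theorem rf_rf {a b : V} (haa : GF.mdot a a = 0) (hbb : GF.mdot b b = 0) (hab : GF.mdot a b = 1)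
    (x : V) : rf a b (rf a b x) = x := by
  funext n
  rw [rf_apply, mdot_a_rf haa hab, mdot_b_rf hbb hab, rf_apply]
  ring

theorem mdot_rf {a b : V} (haa : GF.mdot a a = 0) (hbb : GF.mdot b b = 0) (hab : GF.mdot a b = 1)
    (x y : V) : GF.mdot (rf a b x) (rf a b y) = GF.mdot x y := by
  have h1 : GF.mdot (rf a b x) (rf a b y) = GF.mdot (rf a b x) y -
      2 * GF.mdot b y * GF.mdot (rf a b x) a - 2 * GF.mdot a y * GF.mdot (rf a b x) b := by
    conv_lhs => rw [show rf a b y = y - (2 * GF.mdot b y) • a - (2 * GF.mdot a y) • b from rfl]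
    rw [md_sub, md_sub, md_smul, md_smul]
  have h2 : GF.mdot (rf a b x) y = GF.mdot x y - 2 * GF.mdot b x * GF.mdot a y -
      2 * GF.mdot a x * GF.mdot b y := by
    conv_lhs => rw [show rf a b x = x - (2 * GF.mdot b x) • a - (2 * GF.mdot a x) • b from rfl]
    rw [md_sub_l, md_sub_l, md_smul_l, md_smul_l]
  rw [h1, h2, md_comm (rf a b x) a, md_comm (rf a b x) b, mdot_a_rf haa hab, mdot_b_rf hbb hab]
  ring

theorem mdot_rf_left {a b : V} (haa : GF.mdot a a = 0) (hbb : GF.mdot b b = 0)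
    (hab : GF.mdot a b = 1) (x y : V) : GF.mdot (rf a b x) y = GF.mdot x (rf a b y) := by
  rw [← mdot_rf haa hbb hab x (rf a b y), rf_rf haa hbb hab]

/-- the reflection exchanges the opposite wedges -/
theorem rf_mem_wdg {a b : V} (haa : GF.mdot a a = 0) (hbb : GF.mdot b b = 0)
    (hab : GF.mdot a b = 1) {x : V} : rf a b x ∈ Wdg b a 0 ↔ x ∈ Wdg a b 0 := by
  simp only [Wdg, Set.mem_ofPred_eq, sub_zero]
  rw [mdot_a_rf haa hab, mdot_b_rf hbb hab]
  constructor
  · rintro ⟨h1, h2⟩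
    exact ⟨by linarith, by linarith⟩
  · rintro ⟨h1, h2⟩
    exact ⟨by linarith, by linarith⟩

/-- the reflection as a linear map -/
def rfL (a b : V) : Mink →ₗ[ℝ] Mink where
  toFun x := WithLp.toLp 2 (rf a b x.ofLp)
  map_add' x y := by
    show WithLp.toLp 2 (rf a b (x.ofLp + y.ofLp)) = _
    rw [rf_add]
    rfl
  map_smul' c x := by
    show WithLp.toLp 2 (rf a b (c • x.ofLp)) = _
    rw [rf_smul]
    rfl

theorem rfL_apply (a b : V) (x : Mink) : rfL a b x = WithLp.toLp 2 (rf a b x.ofLp) := rfl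

theorem rfL_rfL {a b : V} (haa : GF.mdot a a = 0) (hbb : GF.mdot b b = 0)
    (hab : GF.mdot a b = 1) (x : Mink) : rfL a b (rfL a b x) = x := by
  rw [rfL_apply, rfL_apply]
  show WithLp.toLp 2 (rf a b (rf a b x.ofLp)) = x
  rw [rf_rf haa hbb hab]

/-- the reflection as a continuous linear equivalence -/
def rfE {a b : V} (haa : GF.mdot a a = 0) (hbb : GF.mdot b b = 0)
    (hab : GF.mdot a b = 1) : Mink ≃L[ℝ] Mink :=
  (LinearEquiv.ofInvolutive (rfL a b) (rfL_rfL haa hbb hab)).toContinuousLinearEquiv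

theorem rfE_apply {a b : V} (haa : GF.mdot a a = 0) (hbb : GF.mdot b b = 0)
    (hab : GF.mdot a b = 1) (x : Mink) :
    rfE haa hbb hab x = WithLp.toLp 2 (rf a b x.ofLp) := rfl

theorem rfE_rfE {a b : V} (haa : GF.mdot a a = 0) (hbb : GF.mdot b b = 0)
    (hab : GF.mdot a b = 1) (x : Mink) : rfE haa hbb hab (rfE haa hbb hab x) = x :=
  rfL_rfL haa hbb hab x

theorem rf_preserving {a b : V} (haa : GF.mdot a a = 0) (hbb : GF.mdot b b = 0)
    (hab : GF.mdot a b = 1) : MeasurePreserving (rfE haa hbb hab) (volume : Measure Mink) volume := by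
  refine ⟨(rfE haa hbb hab).continuous.measurable, ?_⟩
  have hsq : LinearMap.det (rfL a b) * LinearMap.det (rfL a b) = 1 := by
    rw [← LinearMap.det_comp]
    have : (rfL a b).comp (rfL a b) = LinearMap.id := by
      ext1 x
      exact rfL_rfL haa hbb hab x
    rw [this, LinearMap.det_id]
  have hne : LinearMap.det (rfL a b) ≠ 0 := by
    intro h
    rw [h, mul_zero] at hsq
    exact zero_ne_one hsq
  have h := Measure.map_linearMap_addHaar_eq_smul_addHaar (μ := (volume : Measure Mink))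
    (f := rfL a b) hne
  have habs : |(LinearMap.det (rfL a b))⁻¹| = 1 := by
    rw [abs_inv]
    have h1 : |LinearMap.det (rfL a b)| * |LinearMap.det (rfL a b)| = 1 := by
      rw [← abs_mul, hsq, abs_one]
    have h2 : |LinearMap.det (rfL a b)| = 1 := by
      nlinarith [abs_nonneg (LinearMap.det (rfL a b))]
    rw [h2, inv_one]
  rw [habs, ENNReal.ofReal_one, one_smul] at h
  exact h

/-- `f ∘ R` -/
def rfS {a b : V} (haa : GF.mdot a a = 0) (hbb : GF.mdot b b = 0)
    (hab : GF.mdot a b = 1) (f : 𝓢(Mink, ℂ)) : 𝓢(Mink, ℂ) :=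
  SchwartzMap.compCLMOfContinuousLinearEquiv ℂ (rfE haa hbb hab) f

theorem rfS_apply {a b : V} (haa : GF.mdot a a = 0) (hbb : GF.mdot b b = 0)
    (hab : GF.mdot a b = 1) (f : 𝓢(Mink, ℂ)) (x : Mink) :
    rfS haa hbb hab f x = f (WithLp.toLp 2 (rf a b x.ofLp)) := rfl

theorem fl_rfS {a b : V} (haa : GF.mdot a a = 0) (hbb : GF.mdot b b = 0)
    (hab : GF.mdot a b = 1) (f : 𝓢(Mink, ℂ)) :
    fl (rfS haa hbb hab f) = fun x => fl f (rf a b x) := rfl

theorem rfS_rfS {a b : V} (haa : GF.mdot a a = 0) (hbb : GF.mdot b b = 0)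
    (hab : GF.mdot a b = 1) (f : 𝓢(Mink, ℂ)) : rfS haa hbb hab (rfS haa hbb hab f) = f := by
  ext x
  rw [rfS_apply, rfS_apply]
  show f (WithLp.toLp 2 (rf a b (rf a b x.ofLp))) = f x
  rw [rf_rf haa hbb hab]

theorem conjS_rfS {a b : V} (haa : GF.mdot a a = 0) (hbb : GF.mdot b b = 0)
    (hab : GF.mdot a b = 1) (f : 𝓢(Mink, ℂ)) :
    conjS (rfS haa hbb hab f) = rfS haa hbb hab (conjS f) := by
  ext x
  rw [conjS_apply, rfS_apply, rfS_apply, conjS_apply]

theorem mdot_rfL {a b : V} (haa : GF.mdot a a = 0) (hbb : GF.mdot b b = 0)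
    (hab : GF.mdot a b = 1) (p x : Mink) :
    mdot (WithLp.toLp 2 (rf a b p.ofLp)) x = mdot p (WithLp.toLp 2 (rf a b x.ofLp)) := by
  rw [mdot_eq, mdot_eq]
  exact mdot_rf_left haa hbb hab _ _

theorem mft_rfS {a b : V} (haa : GF.mdot a a = 0) (hbb : GF.mdot b b = 0)
    (hab : GF.mdot a b = 1) (f : 𝓢(Mink, ℂ)) (p : Mink) :
    mft (rfS haa hbb hab f) p = mft f (WithLp.toLp 2 (rf a b p.ofLp)) := by
  unfold mft
  rw [← (rf_preserving haa hbb hab).integral_comp
    (rfE haa hbb hab).toHomeomorph.measurableEmbedding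
    (fun x => Complex.exp (Complex.I * (mdot (WithLp.toLp 2 (rf a b p.ofLp)) x : ℂ)) * f x)]
  congr 1
  ext x
  rw [rfS_apply, rfE_apply]
  congr 4
  rw [mdot_rfL haa hbb hab]
  show mdot p x = mdot p (WithLp.toLp 2 (rf a b (rf a b x.ofLp)))
  rw [rf_rf haa hbb hab]

theorem isTest_rfS {a b : V} (haa : GF.mdot a a = 0) (hbb : GF.mdot b b = 0)
    (hab : GF.mdot a b = 1) {W W' : Set Mink} {f : 𝓢(Mink, ℂ)} (hf : IsTest W f)
    (h : ∀ x : Mink, WithLp.toLp 2 (rf a b x.ofLp) ∈ W → x ∈ W') :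
    IsTest W' (rfS haa hbb hab f) := by
  have h1 : (rfS haa hbb hab f : Mink → ℂ) = f ∘ (rfE haa hbb hab).toHomeomorph := rfl
  refine ⟨?_, ?_⟩
  · rw [h1]
    exact hf.1.comp_homeomorph _
  · rw [h1, tsupport_comp_eq_preimage]
    intro x hx
    exact h x (hf.2 hx)

theorem isTest_rfS_wdg {a b : V} (haa : GF.mdot a a = 0) (hbb : GF.mdot b b = 0)
    (hab : GF.mdot a b = 1) {f : 𝓢(Mink, ℂ)} (hf : IsTest {x : Mink | x.ofLp ∈ Wdg a b 0} f) :
    IsTest {x : Mink | x.ofLp ∈ Wdg b a 0} (rfS haa hbb hab f) := by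
  refine isTest_rfS haa hbb hab hf fun x hx => ?_
  have hx' : rf a b x.ofLp ∈ Wdg a b 0 := hx
  show x.ofLp ∈ Wdg b a 0
  rw [← rf_mem_wdg haa hbb hab, rf_rf haa hbb hab] at hx'
  exact hx'

/-! ### the same for functions on `V` -/

/-- `f ∘ R` on functions -/
def rfF (a b : V) (f : Fn) : Fn := fun x => f (rf a b x)

theorem isTest_rfF {a b : V} (haa : GF.mdot a a = 0) (hbb : GF.mdot b b = 0)
    (hab : GF.mdot a b = 1) {f : Fn} (hf : GF.IsTest f) : GF.IsTest (rfF a b f) := by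
  obtain ⟨F, rfl⟩ := exists_fl hf
  have : rfF a b (fl F) = fl (rfS haa hbb hab F) := rfl
  rw [this]
  exact isTest_fl _

theorem rfF_rfF {a b : V} (haa : GF.mdot a a = 0) (hbb : GF.mdot b b = 0)
    (hab : GF.mdot a b = 1) (f : Fn) : rfF a b (rfF a b f) = f := by
  funext x
  show f (rf a b (rf a b x)) = f x
  rw [rf_rf haa hbb hab]

theorem bar_rfF (a b : V) (f : Fn) : GF.bar (rfF a b f) = rfF a b (GF.bar f) := rfl

/-- the reflection of `V` as a continuous linear equivalence -/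
def rfV {a b : V} (haa : GF.mdot a a = 0) (hbb : GF.mdot b b = 0)
    (hab : GF.mdot a b = 1) : V ≃L[ℝ] V :=
  (LinearEquiv.ofInvolutive
    ({ toFun := rf a b, map_add' := rf_add a b, map_smul' := rf_smul a b } : V →ₗ[ℝ] V)
    (rf_rf haa hbb hab)).toContinuousLinearEquiv

theorem in_rfF {a b : V} (haa : GF.mdot a a = 0) (hbb : GF.mdot b b = 0)
    (hab : GF.mdot a b = 1) {W W' : Set V} {f : Fn} (hf : In W f)
    (h : ∀ x, rf a b x ∈ W → x ∈ W') : In W' (rfF a b f) := by
  have h1 : rfF a b f = f ∘ (rfV haa hbb hab).toHomeomorph := rfl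
  refine ⟨isTest_rfF haa hbb hab hf.1, ?_, ?_⟩
  · rw [h1]
    exact hf.2.1.comp_homeomorph _
  · rw [h1, tsupport_comp_eq_preimage]
    intro x hx
    exact h x (hf.2.2 hx)

theorem in_rfF_wdg {a b : V} (haa : GF.mdot a a = 0) (hbb : GF.mdot b b = 0)
    (hab : GF.mdot a b = 1) {f : Fn} (hf : In (Wdg a b 0) f) : In (Wdg b a 0) (rfF a b f) := by
  refine in_rfF haa hbb hab hf fun x hx => ?_
  rw [← rf_mem_wdg haa hbb hab, rf_rf haa hbb hab] at hx
  exact hx

/-! ### boosts -/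

/-- the boosts of the pair `a`, `b`: `a`-component times `1 + s`, `b`-component times `1 + t` -/
def bo2 (a b : V) (s t : ℝ) (x : V) : V := x + (s * GF.mdot b x) • a + (t * GF.mdot a x) • b

theorem rf_bo2 {a b : V} (haa : GF.mdot a a = 0) (hbb : GF.mdot b b = 0)
    (hab : GF.mdot a b = 1) (s t : ℝ) (x : V) :
    rf a b (bo2 a b s t x) = bo2 a b s t (rf a b x) := by
  have hba : GF.mdot b a = 1 := by rw [md_comm]; exact hab
  funext n
  have e1 : GF.mdot b (bo2 a b s t x) = (1 + s) * GF.mdot b x := by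
    unfold bo2
    rw [md_add, md_add, md_smul, md_smul, hba, hbb]
    ring
  have e2 : GF.mdot a (bo2 a b s t x) = (1 + t) * GF.mdot a x := by
    unfold bo2
    rw [md_add, md_add, md_smul, md_smul, hab, haa]
    ring
  rw [rf_apply, e1, e2]
  show x n + s * GF.mdot b x * a n + t * GF.mdot a x * b n - 2 * ((1 + s) * GF.mdot b x) * a n -
    2 * ((1 + t) * GF.mdot a x) * b n = rf a b x n + s * GF.mdot b (rf a b x) * a n +
      t * GF.mdot a (rf a b x) * b n
  rw [mdot_a_rf haa hab, mdot_b_rf hbb hab, rf_apply]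
  ring

/-- the matrix of the reflection: `R x n = ∑ m, x m * Rm m n` -/
def rfM (a b : V) : Ix → V := fun m => rf a b (GF.bas m 1)

theorem rfM_apply (a b : V) (m n : Ix) : rfM a b m n =
    GF.bas m 1 n - 2 * (GF.eta m * b m) * a n - 2 * (GF.eta m * a m) * b n := by
  have h : ∀ c : V, GF.mdot c (GF.bas m 1) = GF.eta m * c m := by
    intro c
    unfold GF.mdot
    rw [Finset.sum_eq_single m]
    · simp [GF.bas]
    · intro k _ hk
      simp [GF.bas, hk]
    · simp
  rw [rfM, rf_apply, h, h]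

theorem sum_rfM (a b x : V) (n : Ix) : ∑ m, x m * rfM a b m n = rf a b x n := by
  simp only [rfM_apply]
  rw [rf_apply]
  have h1 : ∑ m, x m * GF.bas m 1 n = x n := by
    rw [Finset.sum_eq_single n]
    · simp [GF.bas]
    · intro k _ hk
      simp [GF.bas, Ne.symm hk]
    · simp
  have h2 : ∀ c : V, ∑ m, x m * (GF.eta m * c m) = GF.mdot c x := by
    intro c
    unfold GF.mdot
    refine Finset.sum_congr rfl fun m _ => ?_
    ring
  calc ∑ m, x m * (GF.bas m 1 n - 2 * (GF.eta m * b m) * a n - 2 * (GF.eta m * a m) * b n)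
      = ∑ m, x m * GF.bas m 1 n - 2 * (∑ m, x m * (GF.eta m * b m)) * a n -
        2 * (∑ m, x m * (GF.eta m * a m)) * b n := by
        rw [Finset.mul_sum, Finset.mul_sum, Finset.sum_mul, Finset.sum_mul,
          ← Finset.sum_sub_distrib, ← Finset.sum_sub_distrib]
        refine Finset.sum_congr rfl fun m _ => ?_
        ring
    _ = _ := by rw [h1, h2, h2]

theorem sum_rfM_rfM {a b : V} (haa : GF.mdot a a = 0) (hbb : GF.mdot b b = 0)
    (hab : GF.mdot a b = 1) (m n : Ix) : ∑ k, rfM a b m k * rfM a b k n = GF.bas m 1 n := by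
  rw [sum_rfM, rfM, rf_rf haa hbb hab]

end Vale.Agent.P352.BW.T
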