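import Vale.Agent.P352.GFDefs

open MeasureTheory Filter Topology
open scoped SchwartzMap

namespace Vale.Agent.P352.BW

open GF

noncomputable section

variable {D : Type*} [NormedAddCommGroup D] [InnerProductSpace ℂ D]

/-- The fields `Φ μ` are the contravariant components of a tensor field of rank `k`: covariance
under the Lorentz group. (The fields of a theory are covariant under translations.) -/
def IsTf (Q : Theory D) (k : ℕ) (Φ : (Fin k → Ix) → Fld D) : Prop :=
  (∀ μ, Q.fld (Φ μ)) ∧ ∀ μ L f v, IsLor L → IsTest f →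
    Φ μ f (Q.U 1 L 0 v) = ∑ ν : Fin k → Ix, ((∏ i, L (ν i) (μ i) : ℝ) : ℂ) •
      Q.U 1 L 0 (Φ ν (fun x => f (sim 1 L 0 x)) v)

/-- The vacuum is cyclic for the tensor fields. -/
def TfGen (Q : Theory D) : Prop := ∀ S : Submodule ℂ D, Q.vac ∈ S →
  (∀ k Φ μ f v, IsTf Q k Φ → IsTest f → v ∈ S → Φ μ f v ∈ S) → Dense (S : Set D)

end

end Vale.Agent.P352.BW
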